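import Vale.Agent.Lib.P078S.Defs

/-!
# P078C At: statement-level definitions for corners `pMp`, inside `B(H)`

For a projection `p` of the MASA `A` of `M`, the inclusion `Ap ⊆ pMp` (acting on `pH`) is written with
operators of `B(H)` that vanish on `(1 - p)H`.  For `p = 1` these are the notions of the problem.
-/

namespace Vale.Agent.P078

open Filter
open scoped InnerProductSpace Topology

universe u

variable {H : Type u} [NormedAddCommGroup H] [InnerProductSpace ℂ H] [CompleteSpace H]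

/-- a partition of the projection `p` in `A` with `r` pieces -/
structure IsPartitionOf (A : StarSubalgebra ℂ (H →L[ℂ] H)) (p : H →L[ℂ] H) {r : ℕ}
    (e : Fin r → H →L[ℂ] H) : Prop where
  mem : ∀ i, e i ∈ A
  proj : ∀ i, IsStarProjection (e i)
  orth : ∀ i j, i ≠ j → e i * e j = 0
  sum : ∑ i, e i = p

/-- `x ∈ pMp` is `(ε, r)` so-pavable over `Ap ⊆ pMp` -/
def SoPavableAt (M : VonNeumannAlgebra H) (A : StarSubalgebra ℂ (H →L[ℂ] H)) (p x : H →L[ℂ] H)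
    (ε : ℝ) (r : ℕ) : Prop :=
  ∀ (F : Finset H) (δ : ℝ), 0 < δ → ∃ (e : Fin r → H →L[ℂ] H) (a q : H →L[ℂ] H),
    IsPartitionOf A p e ∧ a ∈ A ∧ a * p = a ∧ IsSelfAdjoint a ∧ ‖a‖ ≤ ‖x‖ ∧
    q ∈ M ∧ IsStarProjection q ∧ q * p = q ∧
    (∀ ξ ∈ F, ‖(p - q) ξ‖ < δ) ∧ ‖q * (∑ i, e i * x * e i - a) * q‖ ≤ ε * ‖x‖

/-- the so-paving number of `Ap ⊆ pMp` -/
noncomputable def soNumberAt (M : VonNeumannAlgebra H) (A : StarSubalgebra ℂ (H →L[ℂ] H))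
    (p : H →L[ℂ] H) (ε : ℝ) : ℕ∞ :=
  ⨅ (r : ℕ) (_ : 1 ≤ r ∧ ∀ x ∈ M, IsSelfAdjoint x → p * x * p = x → SoPavableAt M A p x ε r),
    (r : ℕ∞)

/-- `τ` is a faithful normal tracial state on `pMp`; normality is continuity for the weak operator
topology on the unit ball of `pMp` -/
structure IsTraceAt (M : VonNeumannAlgebra H) (p : H →L[ℂ] H) (τ : (H →L[ℂ] H) →ₗ[ℂ] ℂ) :
    Prop where
  one : τ p = 1
  nonneg : ∀ y ∈ M, p * y * p = y → 0 ≤ (τ (star y * y)).re ∧ (τ (star y * y)).im = 0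
  tracial : ∀ x ∈ M, p * x * p = x → ∀ y ∈ M, p * y * p = y → τ (x * y) = τ (y * x)
  faithful : ∀ y ∈ M, p * y * p = y → τ (star y * y) = 0 → y = 0
  normal : ∀ (l : Filter (H →L[ℂ] H)) (T₀ : H →L[ℂ] H),
    (∀ᶠ T in l, T ∈ M ∧ p * T * p = T ∧ ‖T‖ ≤ 1) →
    (∀ v w : H, Tendsto (fun T : H →L[ℂ] H => ⟪v, T w⟫_ℂ) l (𝓝 ⟪v, T₀ w⟫_ℂ)) →
      Tendsto τ l (𝓝 (τ T₀))

/-- `pMp` is a II₁ factor: trivial centre, a faithful normal tracial state, no minimal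
projection -/
structure IsII1At (M : VonNeumannAlgebra H) (p : H →L[ℂ] H) : Prop where
  factor : ∀ x ∈ M, p * x * p = x → (∀ y ∈ M, p * y * p = y → x * y = y * x) →
    ∃ c : ℂ, x = c • p
  trace : ∃ τ : (H →L[ℂ] H) →ₗ[ℂ] ℂ, IsTraceAt M p τ
  noMin : ∀ e ∈ M, IsStarProjection e → e * p = e → e ≠ 0 →
    ∃ f ∈ M, IsStarProjection f ∧ f ≠ 0 ∧ f ≠ e ∧ f * e = f

end Vale.Agent.P078
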