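import Vale.Agent.Lib.P078C.Def

/-!
# P078C Join: pavability of both corners gives pavability

`K` and `L` are orthogonal complements of each other: `K.starProjection * L.starProjection = 0`
(from `hKL` and idempotence), so `ext0 K u * ext0 L v = 0 = ext0 L v * ext0 K u` (`proj_ext0`,
`ext0_proj`).  Given `F`, `δ`: apply `h1` to the image of `F` under
`K.orthogonalProjectionOnto` and `δ / 2`, the same for `L`; get `p₁, a₁, q₁` and `p₂, a₂, q₂`.  Take
`p = Fin.append (ext0 K ∘ p₁) (ext0 L ∘ p₂)` (`Fin.append_left`, `Fin.append_right`,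
`Fin.sum_univ_add`, `Fin.addCases`), `a = ext0 K a₁ + ext0 L a₂`, `q = ext0 K q₁ + ext0 L q₂`.
* general fact: `‖ext0 K u + ext0 L v‖ ≤ c` if `‖u‖ ≤ c`, `‖v‖ ≤ c`: `‖(…) ξ‖² = ‖u (P_K ξ)‖² + ‖v (P_L ξ)‖²`
  (orthogonal, Pythagoras) `≤ c² (‖P_K ξ‖² + ‖P_L ξ‖²) = c² ‖ξ‖²`.
* `‖a‖ ≤ ‖x‖` by this fact and `norm_comp0_le`.
* `(1 - q) ξ = ((1 - q₁) P_K ξ : H) + ((1 - q₂) P_L ξ : H)`.
* `ext0 K (p₁ c) * x * ext0 K (p₁ c) = ext0 K (p₁ c * comp0 K x * p₁ c)` (`ext0_comp0`,
  `ext0_mul`, `proj_ext0`, `ext0_proj`), so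
  `q * (∑ p c * x * p c - a) * q = ext0 K (q₁ * (…₁) * q₁) + ext0 L (q₂ * (…₂) * q₂)`; norm by the fact,
  `ε * ‖comp0 K x‖ ≤ ε * ‖x‖`.
-/

namespace Vale.Agent.P078

open Filter
open scoped InnerProductSpace Topology

universe u

variable {H : Type u} [NormedAddCommGroup H] [InnerProductSpace ℂ H] [CompleteSpace H]
  {M : VonNeumannAlgebra H} {A : StarSubalgebra ℂ (H →L[ℂ] H)}

/-- the diagonal operator with blocks `u`, `v` -/
private noncomputable def jn (K L : Submodule ℂ H) [CompleteSpace K] [CompleteSpace L]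
    (u : K →L[ℂ] K) (v : L →L[ℂ] L) : H →L[ℂ] H := ext0 K u + ext0 L v

section
variable {K L : Submodule ℂ H} [CompleteSpace K] [CompleteSpace L]

private theorem join_pq (hKL : K.starProjection + L.starProjection = 1) :
    K.starProjection * L.starProjection = 0 := by
  have h1 : L.starProjection = 1 - K.starProjection := eq_sub_of_add_eq' hKL
  rw [h1, mul_sub, mul_one, (K.isIdempotentElem_starProjection).eq, sub_self]

private theorem join_qp (hKL : K.starProjection + L.starProjection = 1) :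
    L.starProjection * K.starProjection = 0 := by
  rw [add_comm] at hKL
  exact join_pq hKL

private theorem join_zero (hKL : K.starProjection + L.starProjection = 1) (u : K →L[ℂ] K)
    (v : L →L[ℂ] L) : ext0 K u * ext0 L v = 0 := by
  calc ext0 K u * ext0 L v = (ext0 K u * K.starProjection) * (L.starProjection * ext0 L v) := by
        rw [ext0_proj, proj_ext0]
    _ = ext0 K u * (K.starProjection * L.starProjection) * ext0 L v := by
        simp only [mul_assoc]
    _ = 0 := by rw [join_pq hKL, mul_zero, zero_mul]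

private theorem join_zero' (hKL : K.starProjection + L.starProjection = 1) (u : K →L[ℂ] K)
    (v : L →L[ℂ] L) : ext0 L v * ext0 K u = 0 := by
  rw [add_comm] at hKL
  exact join_zero hKL v u

private theorem join_mul (hKL : K.starProjection + L.starProjection = 1) (u u' : K →L[ℂ] K)
    (v v' : L →L[ℂ] L) : jn K L u v * jn K L u' v' = jn K L (u * u') (v * v') := by
  unfold jn
  rw [add_mul, mul_add, mul_add, join_zero hKL, join_zero' hKL, ext0_mul, ext0_mul, add_zero,
    zero_add]

private theorem join_star (u : K →L[ℂ] K) (v : L →L[ℂ] L) :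
    star (jn K L u v) = jn K L (star u) (star v) := by
  unfold jn
  rw [star_add, ext0_star, ext0_star]

private theorem join_sub (u u' : K →L[ℂ] K) (v v' : L →L[ℂ] L) :
    jn K L (u - u') (v - v') = jn K L u v - jn K L u' v' := by
  unfold jn
  rw [ext0_sub, ext0_sub]
  abel

private theorem join_one (hKL : K.starProjection + L.starProjection = 1) :
    jn K L 1 1 = 1 := by
  unfold jn
  rw [ext0_one, ext0_one, hKL]

private theorem join_apply (u : K →L[ℂ] K) (v : L →L[ℂ] L) (ξ : H) :
    jn K L u v ξ = (u (K.orthogonalProjectionOnto ξ) : H) +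
      (v (L.orthogonalProjectionOnto ξ) : H) := rfl

private theorem join_inner (hKL : K.starProjection + L.starProjection = 1) (a : K) (b : L) :
    ⟪(a : H), (b : H)⟫_ℂ = 0 := by
  have h1 : K.starProjection (a : H) = a := K.starProjection_eq_self_iff.2 a.2
  have h2 : L.starProjection (b : H) = b := L.starProjection_eq_self_iff.2 b.2
  have h3 : K.starProjection (L.starProjection (b : H)) = 0 :=
    congrArg (fun T : H →L[ℂ] H => T (b : H)) (join_pq hKL)
  rw [← h1, K.inner_starProjection_left_eq_right, ← h2, h3, inner_zero_right]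

private theorem join_pyth (hKL : K.starProjection + L.starProjection = 1) (a : K) (b : L) :
    ‖(a : H) + (b : H)‖ ^ 2 = ‖a‖ ^ 2 + ‖b‖ ^ 2 := by
  have h := norm_add_sq_eq_norm_sq_add_norm_sq_of_inner_eq_zero (𝕜 := ℂ) (a : H) (b : H)
    (join_inner hKL a b)
  rw [sq, h, sq, sq]
  rfl

private theorem join_split (hKL : K.starProjection + L.starProjection = 1) (ξ : H) :
    ‖ξ‖ ^ 2 = ‖K.orthogonalProjectionOnto ξ‖ ^ 2 + ‖L.orthogonalProjectionOnto ξ‖ ^ 2 := by
  rw [← join_pyth hKL]
  have h : ((K.orthogonalProjectionOnto ξ : K) : H) + (L.orthogonalProjectionOnto ξ : L) = ξ :=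
    congrArg (fun T : H →L[ℂ] H => T ξ) hKL
  rw [h]

private theorem join_norm (hKL : K.starProjection + L.starProjection = 1) {u : K →L[ℂ] K}
    {v : L →L[ℂ] L} {c : ℝ} (hc : 0 ≤ c) (hu : ‖u‖ ≤ c) (hv : ‖v‖ ≤ c) :
    ‖jn K L u v‖ ≤ c := by
  refine ContinuousLinearMap.opNorm_le_bound _ hc fun ξ => ?_
  refine le_of_sq_le_sq ?_ (mul_nonneg hc (norm_nonneg _))
  rw [join_apply, join_pyth hKL, mul_pow, join_split hKL ξ, mul_add]
  refine add_le_add ?_ ?_
  · rw [← mul_pow]
    exact pow_le_pow_left₀ (norm_nonneg _) ((u.le_opNorm _).trans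
      (mul_le_mul_of_nonneg_right hu (norm_nonneg _))) 2
  · rw [← mul_pow]
    exact pow_le_pow_left₀ (norm_nonneg _) ((v.le_opNorm _).trans
      (mul_le_mul_of_nonneg_right hv (norm_nonneg _))) 2

end

section
variable (K : Submodule ℂ H) [CompleteSpace K]

private theorem join_sum {n : ℕ} (f : Fin n → K →L[ℂ] K) :
    ext0 K (∑ i, f i) = ∑ i, ext0 K (f i) := by
  let g : (K →L[ℂ] K) →+ (H →L[ℂ] H) :=
    { toFun := ext0 K
      map_zero' := ext0_zero K
      map_add' := ext0_add K }
  exact map_sum g f Finset.univ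

private theorem join_proj {y : K →L[ℂ] K} (hy : IsStarProjection y) :
    IsStarProjection (ext0 K y) := by
  refine ⟨?_, ?_⟩
  · change ext0 K y * ext0 K y = ext0 K y
    rw [← ext0_mul, hy.isIdempotentElem.eq]
  · change star (ext0 K y) = ext0 K y
    rw [← ext0_star, hy.isSelfAdjoint.star_eq]

private theorem join_conj (y : K →L[ℂ] K) (x : H →L[ℂ] H) :
    ext0 K y * x * ext0 K y = ext0 K (y * comp0 K x * y) := by
  rw [ext0_mul, ext0_mul, ext0_comp0]
  calc ext0 K y * x * ext0 K y =
      (ext0 K y * K.starProjection) * x * (K.starProjection * ext0 K y) := by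
        rw [ext0_proj, proj_ext0]
    _ = _ := by simp only [mul_assoc]

end

theorem pave_join {K L : Submodule ℂ H} [CompleteSpace K] [CompleteSpace L]
    (hK : K.starProjection ∈ A) (hL : L.starProjection ∈ A) (hKM : K.starProjection ∈ M)
    (hLM : L.starProjection ∈ M) (hKL : K.starProjection + L.starProjection = 1)
    {x : H →L[ℂ] H} {ε : ℝ} (hε : 0 ≤ ε) {r s : ℕ}
    (h1 : SoPavable (corner M K hKM) (cornerS A K hK) (comp0 K x) ε r)
    (h2 : SoPavable (corner M L hLM) (cornerS A L hL) (comp0 L x) ε s) :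
    SoPavable M A x ε (r + s) := by
  classical
  intro F δ hδ
  obtain ⟨p₁, a₁, q₁, hp₁, ha₁, has₁, han₁, hq₁, hqp₁, hF₁, hn₁⟩ :=
    h1 (F.image K.orthogonalProjectionOnto) (δ / 2) (half_pos hδ)
  obtain ⟨p₂, a₂, q₂, hp₂, ha₂, has₂, han₂, hq₂, hqp₂, hF₂, hn₂⟩ :=
    h2 (F.image L.orthogonalProjectionOnto) (δ / 2) (half_pos hδ)
  refine ⟨Fin.append (fun i => ext0 K (p₁ i)) (fun i => ext0 L (p₂ i)), jn K L a₁ a₂,
    jn K L q₁ q₂, ⟨?_, ?_, ?_, ?_⟩, ?_, ?_, ?_, ?_, ?_, ?_, ?_⟩
  · intro i
    refine Fin.addCases (fun j => ?_) (fun j => ?_) i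
    · rw [Fin.append_left]
      exact hp₁.mem j
    · rw [Fin.append_right]
      exact hp₂.mem j
  · intro i
    refine Fin.addCases (fun j => ?_) (fun j => ?_) i
    · rw [Fin.append_left]
      exact join_proj K (hp₁.proj j)
    · rw [Fin.append_right]
      exact join_proj L (hp₂.proj j)
  · intro i
    refine Fin.addCases (fun j => ?_) (fun j => ?_) i
    · intro i'
      refine Fin.addCases (fun j' => ?_) (fun j' => ?_) i'
      · intro hne
        rw [Fin.append_left, Fin.append_left, ← ext0_mul, hp₁.orth j j' (fun h => hne (by rw [h])),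
          ext0_zero]
      · intro _
        rw [Fin.append_left, Fin.append_right]
        exact join_zero hKL _ _
    · intro i'
      refine Fin.addCases (fun j' => ?_) (fun j' => ?_) i'
      · intro _
        rw [Fin.append_left, Fin.append_right]
        exact join_zero' hKL _ _
      · intro hne
        rw [Fin.append_right, Fin.append_right, ← ext0_mul,
          hp₂.orth j j' (fun h => hne (by rw [h])), ext0_zero]
  · rw [Fin.sum_univ_add]
    simp only [Fin.append_left, Fin.append_right]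
    rw [← join_sum, ← join_sum, hp₁.sum, hp₂.sum]
    exact join_one hKL
  · exact add_mem (S := StarSubalgebra ℂ (H →L[ℂ] H)) ha₁ ha₂
  · change star (jn K L a₁ a₂) = jn K L a₁ a₂
    rw [join_star, has₁.star_eq, has₂.star_eq]
  · exact join_norm hKL (norm_nonneg _) (han₁.trans (norm_comp0_le K x))
      (han₂.trans (norm_comp0_le L x))
  · exact add_mem (S := VonNeumannAlgebra H) hq₁ hq₂
  · refine ⟨?_, ?_⟩
    · change jn K L q₁ q₂ * jn K L q₁ q₂ = jn K L q₁ q₂
      rw [join_mul hKL, hqp₁.isIdempotentElem.eq, hqp₂.isIdempotentElem.eq]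
    · change star (jn K L q₁ q₂) = jn K L q₁ q₂
      rw [join_star, hqp₁.isSelfAdjoint.star_eq, hqp₂.isSelfAdjoint.star_eq]
  · intro ξ hξ
    have e1 : 1 - jn K L q₁ q₂ = jn K L (1 - q₁) (1 - q₂) := by
      rw [join_sub, join_one hKL]
    rw [e1, join_apply]
    have e2 := hF₁ _ (Finset.mem_image_of_mem _ hξ)
    have e3 := hF₂ _ (Finset.mem_image_of_mem _ hξ)
    calc ‖(((1 - q₁) (K.orthogonalProjectionOnto ξ) : K) : H) +
          (((1 - q₂) (L.orthogonalProjectionOnto ξ) : L) : H)‖
        ≤ ‖(((1 - q₁) (K.orthogonalProjectionOnto ξ) : K) : H)‖ +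
          ‖(((1 - q₂) (L.orthogonalProjectionOnto ξ) : L) : H)‖ := norm_add_le _ _
      _ < δ / 2 + δ / 2 := add_lt_add e2 e3
      _ = δ := add_halves δ
  · have e1 : ∑ i, (Fin.append (fun i => ext0 K (p₁ i)) (fun i => ext0 L (p₂ i)) : Fin (r + s) → _) i
        * x * (Fin.append (fun i => ext0 K (p₁ i)) (fun i => ext0 L (p₂ i)) : Fin (r + s) → _) i =
        jn K L (∑ i, p₁ i * comp0 K x * p₁ i) (∑ i, p₂ i * comp0 L x * p₂ i) := by
      rw [Fin.sum_univ_add]
      simp only [Fin.append_left, Fin.append_right, join_conj]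
      unfold jn
      rw [join_sum, join_sum]
    rw [e1, ← join_sub, join_mul hKL, join_mul hKL]
    refine join_norm hKL (mul_nonneg hε (norm_nonneg _)) (hn₁.trans ?_) (hn₂.trans ?_)
    · exact mul_le_mul_of_nonneg_left (norm_comp0_le K x) hε
    · exact mul_le_mul_of_nonneg_left (norm_comp0_le L x) hε

end Vale.Agent.P078
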