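import Vale.Agent.Lib.P078C.State

/-!
# P078C Lift: central normal functionals of a corner lift to `M`

`liftF L ψ x = ψ (comp0 L x)`.
* nonneg: `comp0 L (star y * y)` is a positive operator in the corner (`comp0_mem_corner`; it is
  `≥ 0` since `⟪comp0 L (star y * y) v, v⟫ = ‖y v‖²`); use `cn_nonneg` for the corner.
* central: `comp0_mul_left`, `comp0_mul_right` (`a ∈ A` commutes with `L.starProjection ∈ A`).
* normal: apply `hψ.normal` to the filter `l.map (comp0 L)` (`norm_comp0_le`,
  `⟪v, comp0 L T w⟫ = ⟪(v : H), T w⟫`).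
-/

namespace Vale.Agent.P078

open Filter
open scoped InnerProductSpace Topology

universe u

variable {H : Type u} [NormedAddCommGroup H] [InnerProductSpace ℂ H] [CompleteSpace H]
  {M : VonNeumannAlgebra H} {A : StarSubalgebra ℂ (H →L[ℂ] H)}

/-- the functional `x ↦ ψ (comp0 L x)` -/
noncomputable def liftF (L : Submodule ℂ H) [CompleteSpace L] (ψ : (L →L[ℂ] L) →ₗ[ℂ] ℂ) :
    (H →L[ℂ] H) →ₗ[ℂ] ℂ where
  toFun x := ψ (comp0 L x)
  map_add' x y := by rw [comp0_add, map_add]
  map_smul' c x := by rw [comp0_smul, map_smul]; rfl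

theorem liftF_central (h : MM M A) {L : Submodule ℂ H} [CompleteSpace L]
    (hL : L.starProjection ∈ A) {ψ : (L →L[ℂ] L) →ₗ[ℂ] ℂ}
    (hψ : IsCentralNormal (corner M L (h.le _ hL)) (cornerS A L hL) ψ) :
    IsCentralNormal M A (liftF L ψ) := by
  have hinner : ∀ (x : H →L[ℂ] H) (v w : L), ⟪v, comp0 L x w⟫_ℂ = ⟪(v : H), x w⟫_ℂ := by
    intro x v w
    rw [comp0_apply, ← Submodule.adjoint_subtypeL, ContinuousLinearMap.adjoint_inner_right]
    rfl
  refine ⟨fun y hy => ?_, fun a ha y hy => ?_, fun l T₀ hT hw => ?_⟩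
  · have hpos : 0 ≤ comp0 L (star y * y) := by
      rw [ContinuousLinearMap.nonneg_iff_isPositive]
      have h1 : (star y * y).IsPositive :=
        (ContinuousLinearMap.nonneg_iff_isPositive _).1 (star_mul_self_nonneg y)
      have h2 := h1.adjoint_conj L.subtypeL
      rw [Submodule.adjoint_subtypeL] at h2
      exact h2
    exact cn_nonneg hψ (comp0_mem_corner (hK := h.le _ hL) (mul_mem (star_mem hy) hy)) hpos
  · have hc : L.starProjection * a = a * L.starProjection := h.comm _ hL _ ha
    change ψ (comp0 L (a * y)) = ψ (comp0 L (y * a))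
    rw [comp0_mul_left L y hc, comp0_mul_right L y hc]
    exact hψ.central _ (comp0_mem_cornerS (hK := hL) ha) _
      (comp0_mem_corner (hK := h.le _ hL) hy)
  · have h1 := hψ.normal (l.map (comp0 L)) (comp0 L T₀) ?_ ?_
    · exact h1.comp tendsto_map
    · rw [eventually_map]
      filter_upwards [hT] with T hT1
      exact ⟨comp0_mem_corner (hK := h.le _ hL) hT1.1, (norm_comp0_le L T).trans hT1.2⟩
    · intro v w
      rw [tendsto_map'_iff]
      have h2 := hw (v : H) (w : H)
      rw [hinner]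
      refine h2.congr fun T => ?_
      exact (hinner T v w).symm

/-- if all central normal functionals of `M` vanish on the projection onto `L`, then the corner
has no nonzero central normal functional (`liftF_central`, `comp0_one`: `ψ 1 = 0`, then
Cauchy-Schwarz `cn_cs` with `x = 1`) -/
theorem noCentral_corner (h : MM M A) {L : Submodule ℂ H} [CompleteSpace L]
    (hL : L.starProjection ∈ A)
    (h0 : ∀ φ : (H →L[ℂ] H) →ₗ[ℂ] ℂ, IsCentralNormal M A φ → φ L.starProjection = 0)
    {ψ : (L →L[ℂ] L) →ₗ[ℂ] ℂ}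
    (hψ : IsCentralNormal (corner M L (h.le _ hL)) (cornerS A L hL) ψ) :
    ∀ y ∈ corner M L (h.le _ hL), ψ y = 0 := by
  intro y hy
  have h1 : ψ 1 = 0 := by
    have h2 := h0 _ (liftF_central h hL hψ)
    have h3 : comp0 L L.starProjection = 1 := by
      rw [← ext0_one, comp0_ext0]
    change ψ (comp0 L L.starProjection) = 0 at h2
    rwa [h3] at h2
  have h4 := cn_cs hψ (x := 1) (one_mem (corner M L (h.le _ hL))) hy
  rw [star_one, one_mul, one_mul, h1, Complex.zero_re, zero_mul] at h4
  have h5 : ‖ψ y‖ = 0 := by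
    have h6 : ‖ψ y‖ ^ 2 = 0 := le_antisymm h4 (sq_nonneg _)
    exact pow_eq_zero_iff (two_ne_zero) |>.1 h6
  exact norm_eq_zero.1 h5

end Vale.Agent.P078
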