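import Vale.Agent.Lib.P078C.State

/-!
# P078C Null: the largest projection of `A` on which central normal functionals separate

Let `N = {y ∈ M | ∀ ψ central normal, ψ (star y * y) = 0}` and `K = ⋂_{y ∈ N} ker y` (closed).
* By Cauchy-Schwarz (`cn_cs`) `N` is a linear subspace, `M N ⊆ N` (not needed), and `N A ⊆ N`:
  `ψ (a⋆ y⋆ y a) = ψ (y⋆ y a a⋆)` (central) and `|ψ (y⋆ · (y a a⋆))|² ≤ ψ (y⋆ y) * … = 0`.
* `K` is invariant under the commutant of `M` (`y t v = t y v = 0`) and under `A` (`y a ∈ N`), so its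
  projection is in `M` (`proj_mem_M`) and commutes with `A` (`_root_.P078.commute_of_invt`), so it is in
  `A` (`h.cent`).  (Use `IsClosed.completeSpace_coe` for completeness.)
* Third claim: `y ∈ N` vanishes on `K`.
* Second claim: fix `ψ`.  CLAIM: for every finite `F ⊆ H` and `δ > 0` there is a projection `f ∈ M` with
  `ψ f = 0` and `‖(1 - K.starProjection - f) v‖ < δ` for `v ∈ F`.  Proof: `v = P_K v + u` with `u ∈ Kᗮ`, and
  `Kᗮ` is the closure of the span of the vectors `star y w`, `y ∈ N`, `w ∈ H` (its orthogonal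
  complement is `K`); so `u` is within `δ/4` of a finite sum `u' = ∑ star (y i) (w i)`.  Collect all `y i` (for all
  `v ∈ F`) in one finite set and let `S = ∑ star (y i) * y i ≥ 0`, `ψ S = 0`.  `spectral_cut` (P078G/Cut)
  with a small `c` gives a projection `g ∈ M`, `⟪S g ξ, g ξ⟫ ≤ c ‖g ξ‖²`, `c ‖(1 - g) ξ‖² ≤ ⟪ξ, S ξ⟫`.
  Take `f = 1 - g`: `c f ≤ S`, so `ψ f = 0` (`cn_mono`, `cn_nonneg`); `f = 0` on `K` as `S = 0` on `K`; and
  `‖y i (g ξ)‖² ≤ ⟪S g ξ, g ξ⟫ ≤ c ‖g ξ‖²`, so `‖g (star (y i) w)‖² = ⟪w, y i (g (star (y i) w))⟫ ≤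
  ‖w‖ √c ‖g (star (y i) w)‖`, i.e. `‖g (star (y i) w)‖ ≤ √c ‖w‖`: `g u'` is small.  Then
  `(1 - P_K - f) v = u - f u = g u`, `‖g u‖ ≤ ‖u - u'‖ + ‖g u'‖ < δ`.
  CONCLUSION: the set `{T | T ∈ M, ‖T‖ ≤ 1, ψ T = 0}` has `1 - K.starProjection` in its closure for the
  weak operator topology; choose `f_{F,n}` (index `Finset H × ℕ`, `atTop`, `δ = 1/(n+1)`), push `atTop`
  forward and use `normal`: `ψ (f_{F,n}) = 0` tends to `ψ (1 - K.starProjection)`, and limits are unique.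
-/

namespace Vale.Agent.P078

open Filter
open scoped InnerProductSpace Topology

universe u

variable {H : Type u} [NormedAddCommGroup H] [InnerProductSpace ℂ H] [CompleteSpace H]
  {M : VonNeumannAlgebra H} {A : StarSubalgebra ℂ (H →L[ℂ] H)}

/-- the null operators -/
private def Null_N (M : VonNeumannAlgebra H) (A : StarSubalgebra ℂ (H →L[ℂ] H))
    (y : H →L[ℂ] H) : Prop :=
  y ∈ M ∧ ∀ ψ : (H →L[ℂ] H) →ₗ[ℂ] ℂ, IsCentralNormal M A ψ → ψ (star y * y) = 0

/-- their common kernel -/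
private def Null_K (M : VonNeumannAlgebra H) (A : StarSubalgebra ℂ (H →L[ℂ] H)) :
    Submodule ℂ H where
  carrier := {v | ∀ y : H →L[ℂ] H, Null_N M A y → y v = 0}
  add_mem' := fun {v w} hv hw y hy => by rw [map_add, hv y hy, hw y hy, add_zero]
  zero_mem' := fun y _ => map_zero y
  smul_mem' := fun c v hv y hy => by rw [map_smul, hv y hy, smul_zero]

private theorem Null_mem {v : H} :
    v ∈ Null_K M A ↔ ∀ y : H →L[ℂ] H, Null_N M A y → y v = 0 := Iff.rfl

private theorem Null_closed : IsClosed (Null_K M A : Set H) := by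
  have : (Null_K M A : Set H) = ⋂ (y : H →L[ℂ] H) (_ : Null_N M A y), {v | y v = 0} := by
    ext v
    simp only [Set.mem_iInter]
    exact Iff.rfl
  rw [this]
  exact isClosed_iInter fun y => isClosed_iInter fun _ =>
    isClosed_eq y.continuous continuous_const

private theorem Null_mul (hle : ∀ a ∈ A, a ∈ M) {y a : H →L[ℂ] H} (hy : Null_N M A y)
    (ha : a ∈ A) : Null_N M A (y * a) := by
  have haM : a ∈ M := hle a ha
  have hsA : star a ∈ A := star_mem (S := StarSubalgebra ℂ (H →L[ℂ] H)) ha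
  have hsM : star a ∈ M := hle _ hsA
  refine ⟨mul_mem hy.1 haM, fun ψ hψ => ?_⟩
  have h1 : star (y * a) * (y * a) = star a * (star y * y * a) := by
    rw [star_mul]
    simp only [mul_assoc]
  have hyy : star y * y * a ∈ M := mul_mem (mul_mem (star_mem hy.1) hy.1) haM
  rw [h1, hψ.central _ hsA _ hyy]
  have h2 : star y * y * a * star a = star y * (y * a * star a) := by simp only [mul_assoc]
  rw [h2]
  have h3 := cn_cs hψ hy.1 (mul_mem (mul_mem hy.1 haM) hsM)
  rw [hy.2 ψ hψ, Complex.zero_re, zero_mul] at h3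
  have h4 : ‖ψ (star y * (y * a * star a))‖ ^ 2 = 0 := le_antisymm h3 (sq_nonneg _)
  exact norm_eq_zero.1 (pow_eq_zero_iff (two_ne_zero) |>.1 h4)

/-- the range vectors of the adjoints of the null operators -/
private def Null_S (M : VonNeumannAlgebra H) (A : StarSubalgebra ℂ (H →L[ℂ] H)) : Set H :=
  {x | ∃ y : H →L[ℂ] H, Null_N M A y ∧ ∃ w, star y w = x}

private theorem Null_orth : (Submodule.span ℂ (Null_S M A))ᗮ = Null_K M A := by
  ext v
  rw [Submodule.mem_orthogonal, Null_mem]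
  constructor
  · intro hv y hy
    refine ext_inner_left ℂ fun w => ?_
    rw [inner_zero_right, ← ContinuousLinearMap.adjoint_inner_left,
      ← ContinuousLinearMap.star_eq_adjoint]
    exact hv _ (Submodule.subset_span ⟨y, hy, w, rfl⟩)
  · intro hv u hu
    induction hu using Submodule.span_induction with
    | mem x hx =>
      obtain ⟨y, hy, w, rfl⟩ := hx
      rw [ContinuousLinearMap.star_eq_adjoint, ContinuousLinearMap.adjoint_inner_left, hv y hy,
        inner_zero_right]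
    | zero => exact inner_zero_left _
    | add x y _ _ hx hy => rw [inner_add_left, hx, hy, add_zero]
    | smul c x _ hx => rw [inner_smul_left, hx, mul_zero]

/-- the positive elements which vanish on `K` and at `ψ` -/
private structure Null_P (M : VonNeumannAlgebra H) (K : Submodule ℂ H)
    (ψ : (H →L[ℂ] H) →ₗ[ℂ] ℂ) (S : H →L[ℂ] H) : Prop where
  mem : S ∈ M
  pos : 0 ≤ S
  val : ψ S = 0
  van : ∀ v ∈ K, S v = 0

private theorem Null_P_add {K : Submodule ℂ H} {ψ : (H →L[ℂ] H) →ₗ[ℂ] ℂ} {S S' : H →L[ℂ] H}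
    (h : Null_P M K ψ S) (h' : Null_P M K ψ S') : Null_P M K ψ (S + S') := by
  refine ⟨add_mem h.mem h'.mem, add_nonneg h.pos h'.pos, ?_, fun v hv => ?_⟩
  · rw [map_add, h.val, h'.val, add_zero]
  · rw [add_apply, h.van v hv, h'.van v hv, add_zero]

/-- `S` is at most `c` on the range of `g` -/
private def Null_le (S g : H →L[ℂ] H) (c : ℝ) : Prop :=
  ∀ ξ : H, (⟪g ξ, S (g ξ)⟫_ℂ).re ≤ c * ‖g ξ‖ ^ 2

omit [CompleteSpace H] in
private theorem Null_re_nonneg {S : H →L[ℂ] H} (hS : 0 ≤ S) (v : H) : 0 ≤ (⟪v, S v⟫_ℂ).re :=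
  ((ContinuousLinearMap.nonneg_iff_isPositive S).1 hS).re_inner_nonneg_right v

omit [CompleteSpace H] in
private theorem Null_le_left {S S' g : H →L[ℂ] H} {c c' : ℝ} (h : Null_le (S + S') g c)
    (hS' : 0 ≤ S') (hc : c ≤ c') : Null_le S g c' := by
  intro ξ
  have h1 := h ξ
  rw [add_apply, inner_add_right, Complex.add_re] at h1
  have h2 := Null_re_nonneg hS' (g ξ)
  have h3 : c * ‖g ξ‖ ^ 2 ≤ c' * ‖g ξ‖ ^ 2 := mul_le_mul_of_nonneg_right hc (sq_nonneg _)
  linarith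

omit [CompleteSpace H] in
private theorem Null_le_right {S S' g : H →L[ℂ] H} {c c' : ℝ} (h : Null_le (S + S') g c)
    (hS : 0 ≤ S) (hc : c ≤ c') : Null_le S' g c' := by
  rw [add_comm] at h
  exact Null_le_left h hS hc

/-- `u` is small on the range of every projection on which a suitable `S` is small -/
private def Null_Q (M : VonNeumannAlgebra H) (K : Submodule ℂ H) (ψ : (H →L[ℂ] H) →ₗ[ℂ] ℂ)
    (F : Set H) (δ : ℝ) : Prop :=
  ∃ (S : H →L[ℂ] H) (c : ℝ), Null_P M K ψ S ∧ 0 < c ∧ ∀ g : H →L[ℂ] H, IsStarProjection g →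
    Null_le S g c → ∀ u ∈ F, ‖g u‖ < δ

private theorem Null_P_zero {K : Submodule ℂ H} {ψ : (H →L[ℂ] H) →ₗ[ℂ] ℂ} :
    Null_P M K ψ 0 :=
  ⟨zero_mem M.toStarSubalgebra, le_refl 0, map_zero ψ, fun _ _ => rfl⟩

private theorem Null_contr {g : H →L[ℂ] H} (hg : IsStarProjection g) (u : H) : ‖g u‖ ≤ ‖u‖ := by
  calc ‖g u‖ ≤ ‖g‖ * ‖u‖ := g.le_opNorm u
    _ ≤ 1 * ‖u‖ := mul_le_mul_of_nonneg_right hg.norm_le (norm_nonneg u)
    _ = ‖u‖ := one_mul _

private theorem Null_proj_inner {g : H →L[ℂ] H} (hg : IsStarProjection g) (u : H) :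
    ⟪g u, g u⟫_ℂ = ⟪g u, u⟫_ℂ := by
  have h1 : ContinuousLinearMap.adjoint g = g := by
    rw [← ContinuousLinearMap.star_eq_adjoint]
    exact hg.isSelfAdjoint.star_eq
  have h2 : g (g u) = g u := congrArg (fun T : H →L[ℂ] H => T u) hg.isIdempotentElem.eq
  calc ⟪g u, g u⟫_ℂ = ⟪ContinuousLinearMap.adjoint g (g u), u⟫_ℂ := by
        rw [ContinuousLinearMap.adjoint_inner_left]
    _ = ⟪g u, u⟫_ℂ := by rw [h1, h2]

private theorem Null_Q_base {ψ : (H →L[ℂ] H) →ₗ[ℂ] ℂ} (hψ : IsCentralNormal M A ψ)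
    {y : H →L[ℂ] H} (hy : Null_N M A y) (w : H) {δ : ℝ} (hδ : 0 < δ) :
    Null_Q M (Null_K M A) ψ {star y w} δ := by
  have hw : 0 < ‖w‖ + 1 := by positivity
  refine ⟨star y * y, (δ / (‖w‖ + 1)) ^ 2, ⟨mul_mem (star_mem hy.1) hy.1,
    star_mul_self_nonneg y, hy.2 ψ hψ, fun v hv => ?_⟩, by positivity, fun g hg hle u hu => ?_⟩
  · rw [mul_apply_eq_comp, hv y hy, map_zero]
  · rw [Set.mem_singleton_iff] at hu
    have hy2 : ∀ v : H, (⟪v, (star y * y) v⟫_ℂ).re = ‖y v‖ ^ 2 := by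
      intro v
      rw [mul_apply_eq_comp, ContinuousLinearMap.star_eq_adjoint,
        ContinuousLinearMap.adjoint_inner_right, inner_self_eq_norm_sq_to_K]
      norm_cast
    have h1 := hle u
    rw [hy2] at h1
    have h2 : ‖y (g u)‖ ≤ δ / (‖w‖ + 1) * ‖g u‖ := by
      rw [← mul_pow] at h1
      exact abs_le_of_sq_le_sq' h1 (by positivity) |>.2
    have h3 : ‖g u‖ ^ 2 ≤ ‖y (g u)‖ * ‖w‖ := by
      have e1 : ⟪g u, g u⟫_ℂ = ⟪y (g u), w⟫_ℂ := by
        have e0 : ⟪g u, star y w⟫_ℂ = ⟪y (g u), w⟫_ℂ := by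
          rw [ContinuousLinearMap.star_eq_adjoint, ContinuousLinearMap.adjoint_inner_right]
        rw [Null_proj_inner hg u, ← e0, ← hu]
      have e2 : ‖⟪g u, g u⟫_ℂ‖ = ‖g u‖ ^ 2 := by
        rw [inner_self_eq_norm_sq_to_K]
        norm_cast
        rw [abs_of_nonneg (sq_nonneg _)]
      rw [← e2, e1]
      exact norm_inner_le_norm _ _
    have h4 : ‖g u‖ ^ 2 ≤ δ / (‖w‖ + 1) * ‖g u‖ * ‖w‖ :=
      h3.trans (mul_le_mul_of_nonneg_right h2 (norm_nonneg w))
    rcases (norm_nonneg (g u)).eq_or_lt with h5 | h5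
    · rw [← h5]
      exact hδ
    · have h6 : ‖g u‖ ≤ δ / (‖w‖ + 1) * ‖w‖ := by
        refine le_of_mul_le_mul_left ?_ h5
        calc ‖g u‖ * ‖g u‖ = ‖g u‖ ^ 2 := (sq _).symm
          _ ≤ δ / (‖w‖ + 1) * ‖g u‖ * ‖w‖ := h4
          _ = ‖g u‖ * (δ / (‖w‖ + 1) * ‖w‖) := by ring
      refine h6.trans_lt ?_
      calc δ / (‖w‖ + 1) * ‖w‖ < δ / (‖w‖ + 1) * (‖w‖ + 1) :=
            mul_lt_mul_of_pos_left (lt_add_one _) (div_pos hδ hw)
        _ = δ := div_mul_cancel₀ _ hw.ne'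

private theorem Null_Q_union {K : Submodule ℂ H} {ψ : (H →L[ℂ] H) →ₗ[ℂ] ℂ} {F F' : Set H} {δ : ℝ}
    (h : Null_Q M K ψ F δ) (h' : Null_Q M K ψ F' δ) : Null_Q M K ψ (F ∪ F') δ := by
  obtain ⟨S, c, hS, hc, h1⟩ := h
  obtain ⟨S', c', hS', hc', h1'⟩ := h'
  refine ⟨S + S', min c c', Null_P_add hS hS', lt_min hc hc', fun g hg hle u hu => ?_⟩
  rcases hu with hu | hu
  · exact h1 g hg (Null_le_left hle hS'.pos (min_le_left _ _)) u hu
  · exact h1' g hg (Null_le_right hle hS.pos (min_le_right _ _)) u hu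

private theorem Null_Q_span {ψ : (H →L[ℂ] H) →ₗ[ℂ] ℂ} (hψ : IsCentralNormal M A ψ) {u : H}
    (hu : u ∈ Submodule.span ℂ (Null_S M A)) :
    ∀ δ : ℝ, 0 < δ → Null_Q M (Null_K M A) ψ {u} δ := by
  induction hu using Submodule.span_induction with
  | mem x hx =>
    intro δ hδ
    obtain ⟨y, hy, w, rfl⟩ := hx
    exact Null_Q_base hψ hy w hδ
  | zero =>
    intro δ hδ
    refine ⟨0, 1, Null_P_zero, one_pos, fun g _ _ u hu => ?_⟩
    rw [Set.mem_singleton_iff.1 hu, map_zero, norm_zero]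
    exact hδ
  | add x y _ _ hx hy =>
    intro δ hδ
    obtain ⟨S, c, hS, hc, h1⟩ := Null_Q_union (hx (δ / 2) (half_pos hδ)) (hy (δ / 2) (half_pos hδ))
    refine ⟨S, c, hS, hc, fun g hg hle u hu => ?_⟩
    rw [Set.mem_singleton_iff.1 hu, map_add]
    have a1 := h1 g hg hle x (Or.inl rfl)
    have a2 := h1 g hg hle y (Or.inr rfl)
    exact (norm_add_le _ _).trans_lt (by linarith)
  | smul a x _ hx =>
    intro δ hδ
    have ha : 0 < ‖a‖ + 1 := by positivity
    obtain ⟨S, c, hS, hc, h1⟩ := hx (δ / (‖a‖ + 1)) (div_pos hδ ha)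
    refine ⟨S, c, hS, hc, fun g hg hle u hu => ?_⟩
    rw [Set.mem_singleton_iff.1 hu, map_smul, norm_smul]
    have a1 := h1 g hg hle x rfl
    calc ‖a‖ * ‖g x‖ ≤ (‖a‖ + 1) * ‖g x‖ :=
          mul_le_mul_of_nonneg_right (by linarith) (norm_nonneg _)
      _ < (‖a‖ + 1) * (δ / (‖a‖ + 1)) := mul_lt_mul_of_pos_left a1 ha
      _ = δ := mul_div_cancel₀ _ ha.ne'

private theorem Null_Q_closure {ψ : (H →L[ℂ] H) →ₗ[ℂ] ℂ} (hψ : IsCentralNormal M A ψ) {u : H}
    (hu : u ∈ (Null_K M A)ᗮ) {δ : ℝ} (hδ : 0 < δ) : Null_Q M (Null_K M A) ψ {u} δ := by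
  rw [← Null_orth, Submodule.orthogonal_orthogonal_eq_closure, ← SetLike.mem_coe,
    Submodule.topologicalClosure_coe, Metric.mem_closure_iff] at hu
  obtain ⟨u', hu', hd⟩ := hu (δ / 2) (half_pos hδ)
  obtain ⟨S, c, hS, hc, h1⟩ := Null_Q_span hψ hu' (δ / 2) (half_pos hδ)
  refine ⟨S, c, hS, hc, fun g hg hle w hw => ?_⟩
  rw [Set.mem_singleton_iff.1 hw]
  have a1 := h1 g hg hle u' rfl
  have a2 := Null_contr hg (u - u')
  rw [dist_eq_norm] at hd
  have e : g u = g (u - u') + g u' := by rw [map_sub, sub_add_cancel]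
  rw [e]
  exact (norm_add_le _ _).trans_lt (by linarith)

private theorem Null_Q_finset {ψ : (H →L[ℂ] H) →ₗ[ℂ] ℂ} (hψ : IsCentralNormal M A ψ)
    (F : Finset H) {δ : ℝ} (hδ : 0 < δ) (hF : ∀ u ∈ F, u ∈ (Null_K M A)ᗮ) :
    Null_Q M (Null_K M A) ψ (F : Set H) δ := by
  classical
  induction F using Finset.induction_on with
  | empty =>
    refine ⟨0, 1, Null_P_zero, one_pos, fun g _ _ u hu => ?_⟩
    rw [Finset.coe_empty] at hu
    exact absurd hu (Set.notMem_empty u)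
  | insert a F _ ih =>
    have h1 := ih fun u hu => hF u (Finset.mem_insert_of_mem hu)
    have h2 := Null_Q_closure hψ (hF a (Finset.mem_insert_self a F)) hδ
    rw [Finset.coe_insert, Set.insert_eq]
    exact Null_Q_union h2 h1

/-- a positive element dominates a multiple of the complement of its cut -/
private theorem Null_dom {S g : H →L[ℂ] H} (hS : 0 ≤ S) (hg : IsStarProjection g) {c : ℝ}
    (hc : 0 < c) (hgf : ∀ ξ : H, c * ‖(1 - g) ξ‖ ^ 2 ≤ (⟪ξ, S ξ⟫_ℂ).re) :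
    1 - g ≤ ((c⁻¹ : ℝ) : ℂ) • S := by
  have hf : IsStarProjection (1 - g) := hg.one_sub
  have hysa : IsSelfAdjoint S := ((ContinuousLinearMap.nonneg_iff_isPositive S).1 hS).isSelfAdjoint
  rw [← sub_nonneg, ContinuousLinearMap.nonneg_iff_isPositive, ContinuousLinearMap.isPositive_def']
  constructor
  · refine IsSelfAdjoint.sub ?_ hf.isSelfAdjoint
    refine IsSelfAdjoint.smul ?_ hysa
    exact Complex.conj_ofReal _
  · intro ξ
    have h1 := hgf ξ
    have h2 : ⟪ξ, (1 - g) ξ⟫_ℂ = ((‖(1 - g) ξ‖ ^ 2 : ℝ) : ℂ) := by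
      have h3 : (1 - g) ξ = (1 - g) ((1 - g) ξ) := by
        rw [← mul_apply_eq_comp, hf.isIdempotentElem.eq]
      have h4 : ⟪ξ, (1 - g) ((1 - g) ξ)⟫_ℂ = ⟪(1 - g) ξ, (1 - g) ξ⟫_ℂ := by
        have h5 : ContinuousLinearMap.adjoint (1 - g) = 1 - g := by
          rw [← ContinuousLinearMap.star_eq_adjoint]
          exact hf.isSelfAdjoint.star_eq
        rw [← ContinuousLinearMap.adjoint_inner_left, h5]
      rw [h3, h4, inner_self_eq_norm_sq_to_K, ← h3]
      norm_cast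
    have h6 : ContinuousLinearMap.reApplyInnerSelf (((c⁻¹ : ℝ) : ℂ) • S - (1 - g)) ξ =
        c⁻¹ * (⟪ξ, S ξ⟫_ℂ).re - ‖(1 - g) ξ‖ ^ 2 := by
      rw [ContinuousLinearMap.reApplyInnerSelf_apply, ← inner_conj_symm]
      have h7 : ⟪ξ, (((c⁻¹ : ℝ) : ℂ) • S - (1 - g)) ξ⟫_ℂ =
          ((c⁻¹ : ℝ) : ℂ) * ⟪ξ, S ξ⟫_ℂ - ((‖(1 - g) ξ‖ ^ 2 : ℝ) : ℂ) := by
        rw [← h2]
        change ⟪ξ, ((c⁻¹ : ℝ) : ℂ) • S ξ - (1 - g) ξ⟫_ℂ = _
        rw [inner_sub_right, inner_smul_right]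
      rw [h7]
      simp only [RCLike.re_to_complex, Complex.conj_re, Complex.sub_re, Complex.ofReal_re,
        Complex.re_ofReal_mul]
    rw [h6, sub_nonneg]
    rw [← div_eq_inv_mul, le_div_iff₀ hc]
    linarith

private theorem Null_approx {ψ : (H →L[ℂ] H) →ₗ[ℂ] ℂ}
    (hψ : IsCentralNormal M A ψ) [CompleteSpace (Null_K M A)] (F : Finset H) {δ : ℝ}
    (hδ : 0 < δ) :
    ∃ f ∈ M, IsStarProjection f ∧ ψ f = 0 ∧
      ∀ v ∈ F, ‖(1 - (Null_K M A).starProjection - f) v‖ < δ := by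
  classical
  obtain ⟨S, c, hS, hc, h1⟩ := Null_Q_finset hψ
    (F.image fun v => v - (Null_K M A).starProjection v) hδ (fun u hu => by
      obtain ⟨v, _, rfl⟩ := Finset.mem_image.1 hu
      exact Submodule.sub_starProjection_mem_orthogonal v)
  obtain ⟨g, hgM, hg, -, hgn, hgf⟩ := spectral_cut hS.mem hS.pos hc
  have hfM : 1 - g ∈ M := sub_mem (one_mem M.toStarSubalgebra) hgM
  have hle : Null_le S g c := by
    intro ξ
    calc (⟪g ξ, S (g ξ)⟫_ℂ).re ≤ ‖⟪g ξ, S (g ξ)⟫_ℂ‖ := Complex.re_le_norm _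
      _ ≤ ‖g ξ‖ * ‖S (g ξ)‖ := norm_inner_le_norm _ _
      _ ≤ ‖g ξ‖ * (c * ‖g ξ‖) := mul_le_mul_of_nonneg_left (hgn ξ) (norm_nonneg _)
      _ = c * ‖g ξ‖ ^ 2 := by ring
  refine ⟨1 - g, hfM, hg.one_sub, ?_, fun v hv => ?_⟩
  · have h2 := cn_mono hψ hfM (M.toStarSubalgebra.smul_mem hS.mem _)
      (Null_dom hS.pos hg hc hgf)
    rw [map_smul, hS.val, smul_zero, Complex.zero_re] at h2
    have h3 := cn_nonneg hψ hfM hg.one_sub.nonneg
    exact Complex.ext (le_antisymm h2 h3.1) h3.2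
  · have h2 := h1 g hg hle (v - (Null_K M A).starProjection v)
      (Finset.mem_coe.2 (Finset.mem_image_of_mem _ hv))
    have h3 : (1 - g) ((Null_K M A).starProjection v) = 0 := by
      have h4 := hgf ((Null_K M A).starProjection v)
      rw [hS.van _ (Submodule.starProjection_apply_mem _ _), inner_zero_right,
        Complex.zero_re] at h4
      have h5 : ‖(1 - g) ((Null_K M A).starProjection v)‖ ^ 2 ≤ 0 := by
        by_contra hcon
        have := mul_pos hc (not_le.1 hcon)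
        linarith
      have h6 : ‖(1 - g) ((Null_K M A).starProjection v)‖ ^ 2 = 0 :=
        le_antisymm h5 (sq_nonneg _)
      exact norm_eq_zero.1 (pow_eq_zero_iff two_ne_zero |>.1 h6)
    have h7 : (Null_K M A).starProjection v = g ((Null_K M A).starProjection v) := by
      have : (1 - g) ((Null_K M A).starProjection v) =
          (Null_K M A).starProjection v - g ((Null_K M A).starProjection v) := rfl
      rw [this] at h3
      exact sub_eq_zero.1 h3
    have e : (1 - (Null_K M A).starProjection - (1 - g)) v =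
        g (v - (Null_K M A).starProjection v) := by
      change v - (Null_K M A).starProjection v - (v - g v) = _
      rw [map_sub, ← h7]
      abel
    rw [e]
    exact h2

theorem exists_null (h : MM M A) : ∃ (K : Submodule ℂ H) (_ : CompleteSpace K),
    K.starProjection ∈ A ∧
    (∀ ψ : (H →L[ℂ] H) →ₗ[ℂ] ℂ, IsCentralNormal M A ψ → ψ (1 - K.starProjection) = 0) ∧
    ∀ y ∈ M, (∀ ψ : (H →L[ℂ] H) →ₗ[ℂ] ℂ, IsCentralNormal M A ψ → ψ (star y * y) = 0) →
      y * K.starProjection = 0 := by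
  classical
  have hcs : CompleteSpace (Null_K M A) := Null_closed.completeSpace_coe
  have hM : (Null_K M A).starProjection ∈ M := by
    refine proj_mem_M fun t ht v hv y hy => ?_
    have h1 := congrArg (fun S : H →L[ℂ] H => S v) (comm_of_mem hy.1 ht)
    simp only [mul_apply_eq_comp] at h1
    rw [h1, hv y hy, map_zero]
  have hinv : ∀ a ∈ A, ∀ v ∈ Null_K M A, a v ∈ Null_K M A := by
    intro a ha v hv y hy
    exact hv _ (Null_mul h.le hy ha)
  have hA : (Null_K M A).starProjection ∈ A := by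
    refine h.cent _ hM fun a ha => ?_
    exact _root_.P078.commute_of_invt (hinv a ha)
      (hinv _ (star_mem (S := StarSubalgebra ℂ (H →L[ℂ] H)) ha))
  refine ⟨Null_K M A, hcs, hA, fun ψ hψ => ?_, fun y hy hn => ?_⟩
  · choose f hfM hfp hf0 hfn using fun i : Finset H × ℕ =>
      Null_approx hψ i.1 (show (0 : ℝ) < 1 / ((i.2 : ℝ) + 1) by positivity)
    have h1 := hψ.normal ((atTop : Filter (Finset H × ℕ)).map f)
      (1 - (Null_K M A).starProjection) ?_ ?_
    · rw [tendsto_map'_iff] at h1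
      have h2 : (ψ ∘ f : Finset H × ℕ → ℂ) = fun _ => 0 := funext hf0
      rw [h2] at h1
      exact tendsto_nhds_unique h1 tendsto_const_nhds |>.symm ▸ rfl
    · rw [eventually_map]
      exact Eventually.of_forall fun i => ⟨hfM i, (hfp i).norm_le⟩
    · intro v w
      rw [tendsto_map'_iff, Metric.tendsto_nhds]
      intro ε hε
      obtain ⟨n0, hn0⟩ := exists_nat_one_div_lt (div_pos hε (show 0 < ‖v‖ + 1 by positivity))
      filter_upwards [eventually_ge_atTop (({w} : Finset H), n0)] with i hi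
      have hw : w ∈ i.1 := hi.1 (Finset.mem_singleton_self w)
      have hi2 : (n0 : ℝ) ≤ i.2 := by exact_mod_cast hi.2
      have h3 := hfn i w hw
      have h4 : 1 / ((i.2 : ℝ) + 1) ≤ 1 / ((n0 : ℝ) + 1) :=
        one_div_le_one_div_of_le (by positivity) (by linarith)
      rw [dist_comm, dist_eq_norm]
      show ‖⟪v, (1 - (Null_K M A).starProjection) w⟫_ℂ - ⟪v, f i w⟫_ℂ‖ < ε
      rw [← inner_sub_right]
      have h5 : (1 - (Null_K M A).starProjection) w - f i w =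
        (1 - (Null_K M A).starProjection - f i) w := rfl
      rw [h5]
      have hv : 0 < ‖v‖ + 1 := by positivity
      calc ‖⟪v, (1 - (Null_K M A).starProjection - f i) w⟫_ℂ‖
          ≤ ‖v‖ * ‖(1 - (Null_K M A).starProjection - f i) w‖ := norm_inner_le_norm _ _
        _ ≤ (‖v‖ + 1) * ‖(1 - (Null_K M A).starProjection - f i) w‖ :=
          mul_le_mul_of_nonneg_right (by linarith) (norm_nonneg _)
        _ < (‖v‖ + 1) * (ε / (‖v‖ + 1)) :=
          mul_lt_mul_of_pos_left (h3.trans_le (h4.trans hn0.le)) hv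
        _ = ε := mul_div_cancel₀ _ hv.ne'
  · ext v
    rw [mul_apply_eq_comp]
    have h1 : (Null_K M A).starProjection v ∈ Null_K M A := Submodule.starProjection_apply_mem _ _
    exact h1 y ⟨hy, hn⟩

end Vale.Agent.P078
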