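import Vale.Agent.Lib.P078C.Low
import Vale.Agent.Lib.P078C.Join
import Vale.Agent.Lib.P078C.Null
import Vale.Agent.Lib.P078C.Lift
import Vale.Agent.Lib.P078G.Final
import Vale.Agent.Lib.P078L.MainL

/-!
# P078C MainC: assembly (helper14)
-/

namespace Vale.Agent.P078

open Filter
open scoped InnerProductSpace Topology

universe u

variable {H : Type u} [NormedAddCommGroup H] [InnerProductSpace ℂ H] [CompleteSpace H]
  {M : VonNeumannAlgebra H} {A : StarSubalgebra ℂ (H →L[ℂ] H)}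

theorem ext0_isSelfAdjoint {K : Submodule ℂ H} [CompleteSpace K] {y : K →L[ℂ] K}
    (hy : IsSelfAdjoint y) : IsSelfAdjoint (ext0 K y) := by
  change star (ext0 K y) = ext0 K y
  rw [← ext0_star, hy.star_eq]

theorem comp0_isSelfAdjoint {K : Submodule ℂ H} [CompleteSpace K] {x : H →L[ℂ] H}
    (hx : IsSelfAdjoint x) : IsSelfAdjoint (comp0 K x) := by
  change star (comp0 K x) = comp0 K x
  rw [← comp0_star, hx.star_eq]

theorem lower_corner (h : MM M A) {K : Submodule ℂ H} [CompleteSpace K]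
    (hK : K.starProjection ∈ A) (hII : IsII1 (corner M K (h.le _ hK))) {ε : ℝ} (hε : 0 < ε)
    {r : ℕ} (hr : 1 ≤ r) (hp : ∀ x ∈ M, IsSelfAdjoint x → SoPavable M A x ε r) :
    1 / ε ^ 2 ≤ r := by
  have hr0 : (0 : ℝ) < r := by exact_mod_cast hr
  have key : ∀ β : ℝ, 0 < β → 1 ≤ r * (ε + β) ^ 2 := by
    intro β hβ
    have h1 : 1 / (ε + β) ^ 2 ≤ r := by
      refine lower_two hII (mm_corner h hK) (by positivity) hr fun y hy hys => ?_
      exact pave_corner h hK (lt_add_of_pos_right ε hβ) (hp _ hy (ext0_isSelfAdjoint hys))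
    rwa [div_le_iff₀ (by positivity)] at h1
  have h2 : 1 ≤ r * ε ^ 2 := by
    refine le_of_forall_pos_le_add fun γ hγ => ?_
    set β : ℝ := min 1 (γ / (r * (2 * ε + 1))) with hβ
    have h1 : β ≤ 1 := min_le_left _ _
    have h2 : β ≤ γ / (r * (2 * ε + 1)) := min_le_right _ _
    have h0 : 0 < β := lt_min one_pos (by positivity)
    have h3 := key β h0
    rw [le_div_iff₀ (by positivity)] at h2
    have h4 : r * (ε + β) ^ 2 = r * ε ^ 2 + (β * (r * (2 * ε))) + r * β * β := by ring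
    have h5 : (r : ℝ) * β * β ≤ r * β * 1 := mul_le_mul_of_nonneg_left h1 (by positivity)
    nlinarith
  rw [div_le_iff₀ (by positivity)]
  exact h2

theorem decomp (h : MM M A) : ∃ (K : Submodule ℂ H) (_ : CompleteSpace K)
    (hK : K.starProjection ∈ A),
    (∀ ψ : (H →L[ℂ] H) →ₗ[ℂ] ℂ, IsCentralNormal M A ψ → ψ (1 - K.starProjection) = 0) ∧
    (∀ y ∈ M, (∀ ψ : (H →L[ℂ] H) →ₗ[ℂ] ℂ, IsCentralNormal M A ψ → ψ (star y * y) = 0) →
      y * K.starProjection = 0) ∧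
    ∀ ε : ℝ, 0 < ε → soNumber M A ε ≤ ((⌊1 / ε⌋₊ + 1 : ℕ) : ℕ∞) +
      soNumber (corner M K (h.le _ hK)) (cornerS A K hK) ε := by
  obtain ⟨K, hKc, hK, h1, h2⟩ := exists_null h
  refine ⟨K, hKc, hK, h1, h2, fun ε hε => ?_⟩
  by_cases htop : soNumber (corner M K (h.le _ hK)) (cornerS A K hK) ε = ⊤
  · rw [htop]
    simp
  have hlt : soNumber (corner M K (h.le _ hK)) (cornerS A K hK) ε <
      soNumber (corner M K (h.le _ hK)) (cornerS A K hK) ε + 1 :=
    ENat.lt_add_one_iff htop |>.2 le_rfl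
  have hlt' := hlt
  rw [show soNumber (corner M K (h.le _ hK)) (cornerS A K hK) ε =
    ⨅ (r : ℕ) (_ : 1 ≤ r ∧ ∀ x ∈ corner M K (h.le _ hK), IsSelfAdjoint x →
      SoPavable (corner M K (h.le _ hK)) (cornerS A K hK) x ε r), (r : ℕ∞) from rfl] at hlt'
  simp only [iInf_lt_iff] at hlt'
  obtain ⟨s, hs, hsn⟩ := hlt'
  have hsle : (s : ℕ∞) ≤ soNumber (corner M K (h.le _ hK)) (cornerS A K hK) ε :=
    ENat.lt_add_one_iff htop |>.1 hsn
  have hLK : Kᗮ.starProjection = 1 - K.starProjection := K.starProjection_orthogonal'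
  have hL : Kᗮ.starProjection ∈ A := by
    rw [hLK]
    exact sub_mem (one_mem A) hK
  have hNC : ∀ ψ : (Kᗮ →L[ℂ] Kᗮ) →ₗ[ℂ] ℂ,
      IsCentralNormal (corner M Kᗮ (h.le _ hL)) (cornerS A Kᗮ hL) ψ →
      ∀ y ∈ corner M Kᗮ (h.le _ hL), ψ y = 0 := fun ψ hψ =>
    noCentral_corner h hL (fun φ hφ => by rw [hLK]; exact h1 φ hφ) hψ
  obtain ⟨U, E, hE, hS⟩ := spread_of_noCentral (mm_corner h hL) hNC
  have hpave : ∀ x ∈ M, IsSelfAdjoint x → SoPavable M A x ε (⌊1 / ε⌋₊ + 1 + s) := by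
    intro x hxM hx
    refine pave_join hL hK (h.le _ hL) (h.le _ hK) (by rw [hLK]; abel) hε.le ?_ ?_
    · refine upper_gen (mm_corner h hL) hE hS (comp0_mem_corner hxM) (comp0_isSelfAdjoint hx) hε ?_
      push_cast
      exact Nat.lt_floor_add_one (1 / ε)
    · exact hs.2 _ (comp0_mem_corner hxM) (comp0_isSelfAdjoint hx)
  calc soNumber M A ε ≤ ((⌊1 / ε⌋₊ + 1 + s : ℕ) : ℕ∞) :=
        iInf_le_of_le (⌊1 / ε⌋₊ + 1 + s) (iInf_le_of_le ⟨by omega, hpave⟩ le_rfl)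
    _ = ((⌊1 / ε⌋₊ + 1 : ℕ) : ℕ∞) + (s : ℕ∞) := by push_cast; rfl
    _ ≤ _ := add_le_add_right hsle _

end Vale.Agent.P078
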