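import Vale.Agent.Lib.P078C.At
import Vale.Agent.Lib.P078C.MainC

/-!
# P078C Bridge: from the corner acting on `K` to the statement-level notions (helper14)
-/

namespace Vale.Agent.P078

open Filter
open scoped InnerProductSpace Topology

universe u

variable {H : Type u} [NormedAddCommGroup H] [InnerProductSpace ℂ H] [CompleteSpace H]
  {M : VonNeumannAlgebra H} {A : StarSubalgebra ℂ (H →L[ℂ] H)}

theorem Bridge_ext0_iff {K : Submodule ℂ H} [CompleteSpace K] {x : H →L[ℂ] H} :
    K.starProjection * x * K.starProjection = x ↔ ext0 K (comp0 K x) = x := by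
  rw [ext0_comp0]

theorem Bridge_ext0_fix {K : Submodule ℂ H} [CompleteSpace K] (y : K →L[ℂ] K) :
    K.starProjection * ext0 K y * K.starProjection = ext0 K y := by
  rw [proj_ext0, ext0_proj]

theorem Bridge_proj {K : Submodule ℂ H} [CompleteSpace K] {e : H →L[ℂ] H}
    (he : IsStarProjection e) (h : K.starProjection * e = e * K.starProjection) :
    IsStarProjection (comp0 K e) := by
  refine ⟨?_, ?_⟩
  · change comp0 K e * comp0 K e = comp0 K e
    rw [← comp0_mul_left K e h, he.isIdempotentElem.eq]
  · exact comp0_isSelfAdjoint he.isSelfAdjoint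

theorem Bridge_comp0_zero (K : Submodule ℂ H) [CompleteSpace K] : comp0 K 0 = 0 := by
  ext v
  change ((K.orthogonalProjectionOnto 0 : K) : H) = 0
  rw [map_zero]
  rfl

theorem Bridge_comp0_sum {K : Submodule ℂ H} [CompleteSpace K] {ι : Type*} (s : Finset ι)
    (f : ι → H →L[ℂ] H) : comp0 K (∑ i ∈ s, f i) = ∑ i ∈ s, comp0 K (f i) := by
  classical
  induction s using Finset.induction_on with
  | empty =>
    rw [Finset.sum_empty, Finset.sum_empty]
    exact Bridge_comp0_zero K
  | insert i s hi ih => rw [Finset.sum_insert hi, Finset.sum_insert hi, comp0_add, ih]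

theorem Bridge_pave (h : MM M A) {K : Submodule ℂ H} [CompleteSpace K]
    (hK : K.starProjection ∈ A) {y : K →L[ℂ] K} {ε : ℝ} {r : ℕ}
    (hp : SoPavableAt M A K.starProjection (ext0 K y) ε r) :
    SoPavable (corner M K (h.le _ hK)) (cornerS A K hK) y ε r := by
  classical
  intro F δ hδ
  obtain ⟨e, a, q, he, haA, hap, has, han, hqM, hq, hqp, hqF, hqn⟩ :=
    hp (F.image fun v : K => (v : H)) δ hδ
  have hpe : ∀ i, K.starProjection * e i = e i * K.starProjection := fun i =>
    h.comm _ hK _ (he.mem i)
  have hpa : K.starProjection * a = a * K.starProjection := h.comm _ hK _ haA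
  have hps : star K.starProjection = K.starProjection :=
    (isStarProjection_starProjection (U := K)).isSelfAdjoint.star_eq
  have hpq' : K.starProjection * q = q := by
    have h1 := congrArg star hqp
    rwa [star_mul, hq.isSelfAdjoint.star_eq, hps] at h1
  have hpq : K.starProjection * q = q * K.starProjection := by rw [hpq', hqp]
  refine ⟨fun i => comp0 K (e i), comp0 K a, comp0 K q, ⟨fun i => comp0_mem_cornerS (he.mem i),
    fun i => Bridge_proj (he.proj i) (hpe i), fun i j hij => ?_, ?_⟩, comp0_mem_cornerS haA,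
    comp0_isSelfAdjoint has, (norm_comp0_le K a).trans (han.trans (norm_ext0 K y).le),
    comp0_mem_corner hqM, Bridge_proj hq hpq, fun ξ hξ => ?_, ?_⟩
  · change comp0 K (e i) * comp0 K (e j) = 0
    rw [← comp0_mul_left K (e j) (hpe i), he.orth i j hij]
    exact Bridge_comp0_zero K
  · change ∑ i, comp0 K (e i) = 1
    rw [← Bridge_comp0_sum, he.sum]
    apply ext0_injective
    rw [ext0_comp0, ext0_one, K.isIdempotentElem_starProjection.eq,
      K.isIdempotentElem_starProjection.eq]
  · have h1 := hqF (ξ : H) (Finset.mem_image_of_mem _ hξ)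
    have h2 : ((1 - comp0 K q) ξ : K) = K.orthogonalProjectionOnto ((K.starProjection - q) ξ) := by
      change ξ - K.orthogonalProjectionOnto (q ξ) =
        K.orthogonalProjectionOnto (K.starProjection ξ - q ξ)
      rw [map_sub, Submodule.starProjection_mem_subspace_eq_self,
        Submodule.orthogonalProjectionOnto_mem_subspace_eq_self]
    rw [h2]
    exact (K.norm_orthogonalProjectionOnto_apply_le _).trans_lt h1
  · have h1 : comp0 K q * (∑ i, comp0 K (e i) * y * comp0 K (e i) - comp0 K a) * comp0 K q =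
        comp0 K (q * (∑ i, e i * ext0 K y * e i - a) * q) := by
      rw [comp0_mul_right K _ hpq, comp0_mul_left K _ hpq, comp0_sub, Bridge_comp0_sum]
      have h2 : ∀ i, comp0 K (e i * ext0 K y * e i) = comp0 K (e i) * y * comp0 K (e i) := by
        intro i
        rw [comp0_mul_right K _ (hpe i), comp0_mul_left K _ (hpe i), comp0_ext0]
      simp only [h2]
    calc ‖comp0 K q * (∑ i, comp0 K (e i) * y * comp0 K (e i) - comp0 K a) * comp0 K q‖
        = ‖comp0 K (q * (∑ i, e i * ext0 K y * e i - a) * q)‖ := congrArg _ h1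
      _ ≤ ‖q * (∑ i, e i * ext0 K y * e i - a) * q‖ := norm_comp0_le K _
      _ ≤ ε * ‖ext0 K y‖ := hqn
      _ = ε * ‖y‖ := by rw [norm_ext0]

theorem Bridge_number (h : MM M A) {K : Submodule ℂ H} [CompleteSpace K]
    (hK : K.starProjection ∈ A) (ε : ℝ) :
    soNumber (corner M K (h.le _ hK)) (cornerS A K hK) ε ≤ soNumberAt M A K.starProjection ε := by
  refine le_iInf fun r => le_iInf fun hr => iInf_le_of_le r (iInf_le_of_le ⟨hr.1, ?_⟩ le_rfl)
  intro y hy hys
  exact Bridge_pave h hK (hr.2 (ext0 K y) hy (ext0_isSelfAdjoint hys) (Bridge_ext0_fix y))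

theorem exists_space {p : H →L[ℂ] H} (hp : IsStarProjection p) :
    ∃ (K : Submodule ℂ H) (_ : CompleteSpace K), K.starProjection = p := by
  obtain ⟨K, hK, hpK⟩ := isStarProjection_iff_eq_starProjection.1 hp
  have hcl : IsClosed (K : Set H) := by
    have h1 : (K : Set H) = {v | p v - v = 0} := by
      ext v
      simp only [SetLike.mem_coe, Set.mem_setOf_eq, sub_eq_zero]
      rw [hpK, Submodule.starProjection_eq_self_iff]
    rw [h1]
    exact isClosed_eq (by fun_prop) continuous_const
  exact ⟨K, hcl.completeSpace_coe, hpK.symm⟩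

/-- the functional `y ↦ τ (ext0 K y)` -/
noncomputable def restF (K : Submodule ℂ H) [CompleteSpace K] (τ : (H →L[ℂ] H) →ₗ[ℂ] ℂ) :
    (K →L[ℂ] K) →ₗ[ℂ] ℂ where
  toFun y := τ (ext0 K y)
  map_add' x y := by rw [ext0_add, map_add]
  map_smul' c x := by rw [ext0_smul, map_smul]; rfl

theorem restF_trace {K : Submodule ℂ H} [CompleteSpace K] (hK : K.starProjection ∈ M)
    {τ : (H →L[ℂ] H) →ₗ[ℂ] ℂ} (hτ : IsTraceAt M K.starProjection τ) :
    IsTrace (corner M K hK) (restF K τ) where
  one := by
    change τ (ext0 K 1) = 1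
    rw [ext0_one, hτ.one]
  nonneg y hy := by
    change 0 ≤ (τ (ext0 K (star y * y))).re ∧ (τ (ext0 K (star y * y))).im = 0
    rw [ext0_mul, ext0_star]
    exact hτ.nonneg _ hy (Bridge_ext0_fix y)
  tracial x hx y hy := by
    change τ (ext0 K (x * y)) = τ (ext0 K (y * x))
    rw [ext0_mul, ext0_mul]
    exact hτ.tracial _ hx (Bridge_ext0_fix x) _ hy (Bridge_ext0_fix y)
  faithful y hy h0 := by
    change τ (ext0 K (star y * y)) = 0 at h0
    rw [ext0_mul, ext0_star] at h0
    have h1 := hτ.faithful _ hy (Bridge_ext0_fix y) h0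
    apply ext0_injective
    rw [h1, ext0_zero]
  normal l T₀ hl hw := by
    have h1 := hτ.normal (l.map (ext0 K)) (ext0 K T₀) ?_ ?_
    · exact h1.comp tendsto_map
    · rw [eventually_map]
      filter_upwards [hl] with T hT
      exact ⟨hT.1, Bridge_ext0_fix T, by rw [norm_ext0]; exact hT.2⟩
    · intro v w
      rw [tendsto_map'_iff]
      have h2 : ∀ T : K →L[ℂ] K, ⟪v, ext0 K T w⟫_ℂ =
          ⟪K.orthogonalProjectionOnto v, T (K.orthogonalProjectionOnto w)⟫_ℂ := by
        intro T
        rw [ext0_apply, ← Submodule.inner_orthogonalProjectionOnto_eq_of_mem_right]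
      simp only [Function.comp_def, h2]
      exact hw _ _

theorem Bridge_II1 {K : Submodule ℂ H} [CompleteSpace K] (hK : K.starProjection ∈ M)
    (h : IsII1At M K.starProjection) : IsII1 (corner M K hK) where
  factor x hx hc := by
    obtain ⟨c, hc⟩ := h.factor (ext0 K x) hx (Bridge_ext0_fix x) fun y hy hyp => by
      have h1 := hc (comp0 K y) (comp0_mem_corner hy)
      have h2 := congrArg (ext0 K) h1
      rw [ext0_mul, ext0_mul, Bridge_ext0_iff.1 hyp] at h2
      exact h2
    refine ⟨c, ?_⟩
    apply ext0_injective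
    rw [hc, ext0_smul, ext0_one]
  trace := by
    obtain ⟨τ, hτ⟩ := h.trace
    exact ⟨restF K τ, restF_trace hK hτ⟩
  noMin e he hep he0 := by
    have hps : star K.starProjection = K.starProjection :=
      (isStarProjection_starProjection (U := K)).isSelfAdjoint.star_eq
    have h1 : IsStarProjection (ext0 K e) := by
      refine ⟨?_, ext0_isSelfAdjoint hep.isSelfAdjoint⟩
      change ext0 K e * ext0 K e = ext0 K e
      rw [← ext0_mul, hep.isIdempotentElem.eq]
    obtain ⟨f, hfM, hf, hf0, hfe, hfe'⟩ := h.noMin (ext0 K e) he h1 (ext0_proj K e) fun h0 => by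
      apply he0
      apply ext0_injective
      rw [h0, ext0_zero]
    have hfp : f * K.starProjection = f := by
      rw [← hfe', mul_assoc, ext0_proj]
    have hpf : K.starProjection * f = f := by
      have h2 := congrArg star hfp
      rwa [star_mul, hf.isSelfAdjoint.star_eq, hps] at h2
    have hef : ext0 K (comp0 K f) = f := by
      rw [ext0_comp0, hpf, hfp]
    refine ⟨comp0 K f, comp0_mem_corner hfM, Bridge_proj hf (by rw [hpf, hfp]), fun h0 => ?_,
      fun h0 => ?_, ?_⟩
    · apply hf0
      rw [← hef, h0, ext0_zero]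
    · apply hfe
      rw [← hef, h0]
    · apply ext0_injective
      rw [ext0_mul, hef, hfe']

end Vale.Agent.P078
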