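import Vale.Agent.Lib.P078L.Base

/-!
# P078C: corners `pMp`, acting on the closed subspace `K = pH` -- definitions and basic facts

Statement level: `ext0`, `cornerS`, `corner`.
-/

namespace Vale.Agent.P078

open Filter
open scoped InnerProductSpace Topology

universe u

variable {H : Type u} [NormedAddCommGroup H] [InnerProductSpace ℂ H] [CompleteSpace H]

/-- the extension by zero (on the orthogonal complement) of an operator `y` on the closed
subspace `K` -/
noncomputable def ext0 (K : Submodule ℂ H) [CompleteSpace K] (y : K →L[ℂ] K) : H →L[ℂ] H :=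
  K.subtypeL ∘L y ∘L K.orthogonalProjectionOnto

/-- the compression of `x` to `K` -/
noncomputable def comp0 (K : Submodule ℂ H) [CompleteSpace K] (x : H →L[ℂ] H) : K →L[ℂ] K :=
  K.orthogonalProjectionOnto ∘L x ∘L K.subtypeL

section
set_option linter.unusedSectionVars false
variable (K : Submodule ℂ H) [CompleteSpace K]

theorem ext0_apply (y : K →L[ℂ] K) (v : H) :
    ext0 K y v = (y (K.orthogonalProjectionOnto v) : H) := rfl

theorem comp0_apply (x : H →L[ℂ] H) (v : K) :
    comp0 K x v = K.orthogonalProjectionOnto (x v) := rfl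

theorem ext0_coe (y : K →L[ℂ] K) (v : K) : ext0 K y v = (y v : H) := by
  rw [ext0_apply, Submodule.orthogonalProjectionOnto_mem_subspace_eq_self]

theorem comp0_ext0 (y : K →L[ℂ] K) : comp0 K (ext0 K y) = y := by
  ext v
  rw [comp0_apply, ext0_coe, Submodule.orthogonalProjectionOnto_mem_subspace_eq_self]

theorem ext0_comp0 (x : H →L[ℂ] H) : ext0 K (comp0 K x) = K.starProjection * x * K.starProjection :=
  rfl

theorem ext0_one : ext0 K 1 = K.starProjection := rfl

theorem ext0_zero : ext0 K 0 = 0 := by
  ext v
  rw [ext0_apply]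
  rfl

theorem ext0_mul (x y : K →L[ℂ] K) : ext0 K (x * y) = ext0 K x * ext0 K y := by
  ext v
  change ((x (y (K.orthogonalProjectionOnto v)) : K) : H) = ext0 K x (ext0 K y v)
  rw [ext0_apply K y v, ext0_coe]

theorem ext0_add (x y : K →L[ℂ] K) : ext0 K (x + y) = ext0 K x + ext0 K y := rfl

theorem ext0_sub (x y : K →L[ℂ] K) : ext0 K (x - y) = ext0 K x - ext0 K y := rfl

theorem ext0_smul (c : ℂ) (y : K →L[ℂ] K) : ext0 K (c • y) = c • ext0 K y := rfl

theorem ext0_star (y : K →L[ℂ] K) : ext0 K (star y) = star (ext0 K y) := by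
  rw [ContinuousLinearMap.star_eq_adjoint, ContinuousLinearMap.star_eq_adjoint]
  unfold ext0
  rw [ContinuousLinearMap.adjoint_comp, ContinuousLinearMap.adjoint_comp,
    Submodule.adjoint_subtypeL, Submodule.adjoint_orthogonalProjectionOnto]
  rfl

theorem comp0_star (x : H →L[ℂ] H) : comp0 K (star x) = star (comp0 K x) := by
  rw [ContinuousLinearMap.star_eq_adjoint, ContinuousLinearMap.star_eq_adjoint]
  unfold comp0
  rw [ContinuousLinearMap.adjoint_comp, ContinuousLinearMap.adjoint_comp,
    Submodule.adjoint_subtypeL, Submodule.adjoint_orthogonalProjectionOnto]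
  rfl

theorem comp0_add (x y : H →L[ℂ] H) : comp0 K (x + y) = comp0 K x + comp0 K y := by
  ext v
  change ((K.orthogonalProjectionOnto (x v + y v) : K) : H) = _
  rw [map_add]
  rfl

theorem comp0_sub (x y : H →L[ℂ] H) : comp0 K (x - y) = comp0 K x - comp0 K y := by
  ext v
  change ((K.orthogonalProjectionOnto (x v - y v) : K) : H) = _
  rw [map_sub]
  rfl

theorem comp0_smul (c : ℂ) (x : H →L[ℂ] H) : comp0 K (c • x) = c • comp0 K x := by
  ext v
  change ((K.orthogonalProjectionOnto (c • x v) : K) : H) = _
  rw [map_smul]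
  rfl

theorem comp0_one : comp0 K 1 = 1 := by
  ext v
  change ((K.orthogonalProjectionOnto v : K) : H) = v
  rw [Submodule.orthogonalProjectionOnto_mem_subspace_eq_self]

theorem norm_comp0_le (x : H →L[ℂ] H) : ‖comp0 K x‖ ≤ ‖x‖ := by
  refine ContinuousLinearMap.opNorm_le_bound _ (norm_nonneg _) fun v => ?_
  calc ‖comp0 K x v‖ ≤ ‖x v‖ := K.norm_orthogonalProjectionOnto_apply_le _
    _ ≤ ‖x‖ * ‖v‖ := x.le_opNorm v

theorem norm_ext0 (y : K →L[ℂ] K) : ‖ext0 K y‖ = ‖y‖ := by
  refine le_antisymm ?_ ?_
  · refine ContinuousLinearMap.opNorm_le_bound _ (norm_nonneg y) fun v => ?_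
    calc ‖ext0 K y v‖ = ‖y (K.orthogonalProjectionOnto v)‖ := rfl
      _ ≤ ‖y‖ * ‖K.orthogonalProjectionOnto v‖ := y.le_opNorm _
      _ ≤ ‖y‖ * ‖v‖ := mul_le_mul_of_nonneg_left (K.norm_orthogonalProjectionOnto_apply_le _)
          (norm_nonneg y)
  · have := norm_comp0_le K (ext0 K y)
    rwa [comp0_ext0] at this

theorem ext0_injective {x y : K →L[ℂ] K} (h : ext0 K x = ext0 K y) : x = y := by
  rw [← comp0_ext0 K x, h, comp0_ext0]

/-- `ext0` absorbs the projection onto `K` -/
theorem proj_ext0 (y : K →L[ℂ] K) : K.starProjection * ext0 K y = ext0 K y := by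
  rw [← ext0_one, ← ext0_mul, one_mul]

theorem ext0_proj (y : K →L[ℂ] K) : ext0 K y * K.starProjection = ext0 K y := by
  rw [← ext0_one, ← ext0_mul, mul_one]

/-- compression is multiplicative on operators commuting with the projection -/
theorem comp0_mul_left {x : H →L[ℂ] H} (y : H →L[ℂ] H)
    (hx : K.starProjection * x = x * K.starProjection) : comp0 K (x * y) = comp0 K x * comp0 K y := by
  apply ext0_injective
  rw [ext0_mul, ext0_comp0, ext0_comp0, ext0_comp0]
  have hp : K.starProjection * K.starProjection = K.starProjection :=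
    K.isIdempotentElem_starProjection
  calc K.starProjection * (x * y) * K.starProjection
      = (x * K.starProjection) * y * K.starProjection := by rw [← mul_assoc, hx]
    _ = (x * (K.starProjection * K.starProjection)) * y * K.starProjection := by rw [hp]
    _ = ((K.starProjection * x) * (K.starProjection * K.starProjection)) * y *
          K.starProjection := by
        rw [hp, hx, mul_assoc x K.starProjection K.starProjection, hp]
    _ = _ := by
        simp only [mul_assoc]

theorem comp0_mul_right {y : H →L[ℂ] H} (x : H →L[ℂ] H)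
    (hy : K.starProjection * y = y * K.starProjection) : comp0 K (x * y) = comp0 K x * comp0 K y := by
  have h1 : K.starProjection * star y = star y * K.starProjection := by
    have h2 := congrArg star hy
    rw [star_mul, star_mul, (isStarProjection_starProjection (U := K)).isSelfAdjoint.star_eq] at h2
    exact h2.symm
  have h3 := comp0_mul_left K (star x) h1
  have h4 := congrArg star h3
  rw [← comp0_star, star_mul, star_star, star_star] at h4
  calc comp0 K (x * y) = star (comp0 K (star y) * comp0 K (star x)) := h4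
    _ = star (comp0 K (star x)) * star (comp0 K (star y)) :=
        star_mul (comp0 K (star y)) (comp0 K (star x))
    _ = comp0 K x * comp0 K y := by rw [← comp0_star, ← comp0_star, star_star, star_star]

end

/-- the corner `pAp` of a *-subalgebra `A` containing the projection `p` onto `K`, acting on `K` -/
noncomputable def cornerS (A : StarSubalgebra ℂ (H →L[ℂ] H)) (K : Submodule ℂ H) [CompleteSpace K]
    (hK : K.starProjection ∈ A) : StarSubalgebra ℂ (K →L[ℂ] K) where
  carrier := {y | ext0 K y ∈ A}
  mul_mem' := fun {x y} hx hy => by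
    change ext0 K (x * y) ∈ A
    rw [ext0_mul]
    exact mul_mem hx hy
  one_mem' := hK
  add_mem' := fun {x y} hx hy => add_mem (S := StarSubalgebra ℂ (H →L[ℂ] H)) hx hy
  zero_mem' := by
    change ext0 K 0 ∈ A
    rw [ext0_zero]
    exact zero_mem A
  algebraMap_mem' := fun c => by
    change ext0 K (algebraMap ℂ (K →L[ℂ] K) c) ∈ A
    rw [Algebra.algebraMap_eq_smul_one, ext0_smul]
    exact A.smul_mem hK c
  star_mem' := fun {x} hx => by
    change ext0 K (star x) ∈ A
    rw [ext0_star]
    exact star_mem (S := StarSubalgebra ℂ (H →L[ℂ] H)) hx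

theorem mem_cornerS {A : StarSubalgebra ℂ (H →L[ℂ] H)} {K : Submodule ℂ H} [CompleteSpace K]
    {hK : K.starProjection ∈ A} {y : K →L[ℂ] K} : y ∈ cornerS A K hK ↔ ext0 K y ∈ A := Iff.rfl

/-- the corner `pMp` of a von Neumann algebra `M` containing the projection `p` onto `K`, acting
on `K`: the operators on `K` whose extension by zero is in `M` -/
noncomputable def corner (M : VonNeumannAlgebra H) (K : Submodule ℂ H) [CompleteSpace K]
    (hK : K.starProjection ∈ M) : VonNeumannAlgebra K where
  toStarSubalgebra := cornerS M.toStarSubalgebra K hK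
  centralizer_centralizer' := by
    apply Set.Subset.antisymm
    · intro y hy
      change ext0 K y ∈ M
      refine mem_of_comm fun t ht => ?_
      have hp : K.starProjection * t = t * K.starProjection := comm_of_mem hK ht
      -- the compression of `t` commutes with the corner
      have h1 : comp0 K t ∈ Set.centralizer (cornerS M.toStarSubalgebra K hK).carrier := by
        intro z hz
        have hz' : ext0 K z ∈ M := hz
        have h2 : ext0 K z * t = t * ext0 K z := comm_of_mem hz' ht
        have h3 := comp0_mul_right K (ext0 K z) hp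
        have h4 := comp0_mul_left K (ext0 K z) hp
        rw [comp0_ext0] at h3 h4
        rw [← h3, ← h4, h2]
      have h2 : comp0 K t * y = y * comp0 K t := hy _ h1
      have h3 := congrArg (ext0 K) h2
      rw [ext0_mul, ext0_mul, ext0_comp0] at h3
      calc t * ext0 K y = K.starProjection * t * K.starProjection * ext0 K y := by
            rw [mul_assoc (K.starProjection * t), proj_ext0, hp, mul_assoc, proj_ext0]
        _ = ext0 K y * (K.starProjection * t * K.starProjection) := h3
        _ = ext0 K y * t := by
            rw [mul_assoc K.starProjection, ← hp, ← mul_assoc, ← mul_assoc, ext0_proj, ext0_proj]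
    · exact Set.subset_centralizer_centralizer

theorem mem_corner {M : VonNeumannAlgebra H} {K : Submodule ℂ H} [CompleteSpace K]
    {hK : K.starProjection ∈ M} {y : K →L[ℂ] K} : y ∈ corner M K hK ↔ ext0 K y ∈ M := Iff.rfl

theorem comp0_mem_corner {M : VonNeumannAlgebra H} {K : Submodule ℂ H} [CompleteSpace K]
    {hK : K.starProjection ∈ M} {x : H →L[ℂ] H} (hx : x ∈ M) : comp0 K x ∈ corner M K hK := by
  rw [mem_corner, ext0_comp0]
  exact mul_mem (mul_mem hK hx) hK

theorem comp0_mem_cornerS {A : StarSubalgebra ℂ (H →L[ℂ] H)} {K : Submodule ℂ H}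
    [CompleteSpace K] {hK : K.starProjection ∈ A} {x : H →L[ℂ] H} (hx : x ∈ A) :
    comp0 K x ∈ cornerS A K hK := by
  rw [mem_cornerS, ext0_comp0]
  exact mul_mem (mul_mem hK hx) hK

theorem mm_corner {M : VonNeumannAlgebra H} {A : StarSubalgebra ℂ (H →L[ℂ] H)} (h : MM M A)
    {K : Submodule ℂ H} [CompleteSpace K] (hK : K.starProjection ∈ A) :
    MM (corner M K (h.le _ hK)) (cornerS A K hK) := by
  refine ⟨fun a ha => h.le _ ha, fun a ha b hb => ?_, fun x hx hc => ?_⟩
  · apply ext0_injective
    rw [ext0_mul, ext0_mul]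
    exact h.comm _ ha _ hb
  · refine h.cent _ hx fun a ha => ?_
    have hp : K.starProjection * a = a * K.starProjection := h.comm _ hK _ ha
    have h1 := hc (comp0 K a) (comp0_mem_cornerS ha)
    have h3 := congrArg (ext0 K) h1
    rw [ext0_mul, ext0_mul, ext0_comp0] at h3
    calc a * ext0 K x = K.starProjection * a * K.starProjection * ext0 K x := by
          rw [mul_assoc (K.starProjection * a), proj_ext0, hp, mul_assoc, proj_ext0]
      _ = ext0 K x * (K.starProjection * a * K.starProjection) := h3
      _ = ext0 K x * a := by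
          rw [mul_assoc K.starProjection, ← hp, ← mul_assoc, ← mul_assoc, ext0_proj, ext0_proj]

theorem masa_of_mm {M : VonNeumannAlgebra H} {A : StarSubalgebra ℂ (H →L[ℂ] H)} (h : MM M A) :
    IsMASA M A :=
  ⟨h.le, h.comm, fun _ hBM hBc hAB b hb => h.cent b (hBM b hb) fun a ha => hBc a (hAB ha) b hb⟩

end Vale.Agent.P078
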