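import Vale.Agent.Lib.P078C.Def

/-!
# P078C Low: pavability passes to corners

Put `P = K.orthogonalProjectionOnto`, `x = ext0 K y`, `‖x‖ = ‖y‖` (`norm_ext0`), and
`κ = min 1 (((ε' - ε) / 4) ^ 2)`, so `0 < κ`, `4 √κ ≤ ε' - ε`.
Given a finite `F ⊆ K` and `δ > 0`, apply `hp` to the image of `F` in `H` and `κ δ`: get
`p, a, q`.  All `p c` and `a` commute with `K.starProjection ∈ A`.  On `K` take
* the partition `comp0 K (p c)` (`comp0_mem_cornerS`, `comp0_mul_left`, `comp0_star`,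
  `comp0_one`; `comp0` of a finite sum is the sum), and `comp0 K a` (`norm_comp0_le`);
  `∑ comp0 (p c) * y * comp0 (p c) - comp0 a = comp0 T`, `T = ∑ p c * x * p c - a`
  (use `y = comp0 K x` and `comp0_mul_left/right`);
* `W = 1 - comp0 K q = comp0 K (1 - q)`, `0 ≤ W` (a compression of a positive operator), `W` in the
  corner; `spectral_cut` (P078G/Cut.lean, applied to the von Neumann algebra `corner M K _`) with
  `c = κ` gives a projection `g` in the corner with `‖W (g ξ)‖ ≤ κ ‖g ξ‖` and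
  `κ ‖(1 - g) ξ‖² ≤ re ⟪ξ, W ξ⟫`.  This `g` is the new `q`.
* for `ξ ∈ F`: `re ⟪ξ, W ξ⟫ = ‖(1 - q) ξ‖² < (κ δ)²`, so `‖(1 - g) ξ‖² < κ δ² ≤ δ²`.
* for `v = g v ∈ K`: `‖(1 - q) v‖² = re ⟪v, W v⟫ ≤ κ ‖v‖²`, so `‖(1 - q) v‖ ≤ √κ ‖v‖`.
* for `v, w` in the range of `g`: `⟪T v, w⟫ = ⟪T q v, q w⟫ + ⟪T (1 - q) v, q w⟫ + ⟪T v, (1 - q) w⟫`, so
  `|⟪T v, w⟫| ≤ (‖q T q‖ + 2 √κ ‖T‖) ‖v‖ ‖w‖`, `‖T‖ ≤ ‖∑ p c * x * p c‖ + ‖a‖ ≤ 2 ‖x‖`
  (`_root_.P078.Part.pinch_norm (A := A) ⟨r, p, hp.mem, hp.proj, hp.orth, hp.sum⟩ x`),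
  hence `‖g * comp0 T * g‖ ≤ (ε + 4 √κ) ‖x‖ ≤ ε' ‖y‖`.
-/

namespace Vale.Agent.P078

open Filter
open scoped InnerProductSpace Topology

universe u

variable {H : Type u} [NormedAddCommGroup H] [InnerProductSpace ℂ H] [CompleteSpace H]
  {M : VonNeumannAlgebra H} {A : StarSubalgebra ℂ (H →L[ℂ] H)}

private theorem low_inner (K : Submodule ℂ H) [CompleteSpace K] (z : H →L[ℂ] H) (v w : K) :
    ⟪v, comp0 K z w⟫_ℂ = ⟪(v : H), z w⟫_ℂ := by
  rw [comp0_apply, Submodule.inner_orthogonalProjectionOnto_eq_of_mem_left]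

omit [CompleteSpace H] in
private theorem low_zero (K : Submodule ℂ H) [CompleteSpace K] :
    comp0 K (0 : H →L[ℂ] H) = 0 := by
  ext v
  change ((K.orthogonalProjectionOnto (0 : H) : K) : H) = _
  rw [map_zero]
  rfl

private theorem low_sum (K : Submodule ℂ H) [CompleteSpace K] {r : ℕ}
    (t : Fin r → H →L[ℂ] H) : comp0 K (∑ i, t i) = ∑ i, comp0 K (t i) := by
  let φ : (H →L[ℂ] H) →+ (K →L[ℂ] K) :=
    { toFun := comp0 K
      map_zero' := low_zero K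
      map_add' := comp0_add K }
  exact map_sum φ t Finset.univ

private theorem low_sa {E : Type u} [NormedAddCommGroup E] [InnerProductSpace ℂ E]
    [CompleteSpace E] {T : E →L[ℂ] E} (hT : IsSelfAdjoint T) (v w : E) :
    ⟪T v, w⟫_ℂ = ⟪v, T w⟫_ℂ := by
  rw [ContinuousLinearMap.isSelfAdjoint_iff'] at hT
  rw [← ContinuousLinearMap.adjoint_inner_right, hT]

private theorem low_proj_inner {E : Type u} [NormedAddCommGroup E] [InnerProductSpace ℂ E]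
    [CompleteSpace E] {T : E →L[ℂ] E} (hT : IsStarProjection T) (v : E) :
    (⟪v, T v⟫_ℂ).re = ‖T v‖ ^ 2 := by
  have h1 : T (T v) = T v := DFunLike.congr_fun hT.isIdempotentElem v
  have h2 : ⟪v, T v⟫_ℂ = ⟪T v, T v⟫_ℂ := by
    rw [low_sa hT.isSelfAdjoint, h1]
  rw [h2, inner_self_eq_norm_sq_to_K]
  norm_cast

private theorem low_proj_le {E : Type u} [NormedAddCommGroup E] [InnerProductSpace ℂ E]
    [CompleteSpace E] {T : E →L[ℂ] E} (hT : IsStarProjection T) (v : E) : ‖T v‖ ≤ ‖v‖ := by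
  calc ‖T v‖ ≤ ‖T‖ * ‖v‖ := T.le_opNorm v
    _ ≤ 1 * ‖v‖ := mul_le_mul_of_nonneg_right hT.norm_le (norm_nonneg _)
    _ = ‖v‖ := one_mul _

private theorem low_pos (K : Submodule ℂ H) [CompleteSpace K] {z : H →L[ℂ] H} (hz : 0 ≤ z) :
    0 ≤ comp0 K z := by
  rw [ContinuousLinearMap.nonneg_iff_isPositive] at hz ⊢
  have h := hz.adjoint_conj K.subtypeL
  rw [Submodule.adjoint_subtypeL] at h
  exact h

theorem pave_corner (h : MM M A) {K : Submodule ℂ H} [CompleteSpace K]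
    (hK : K.starProjection ∈ A) {y : K →L[ℂ] K} {ε ε' : ℝ} (hε : ε < ε') {r : ℕ}
    (hp : SoPavable M A (ext0 K y) ε r) :
    SoPavable (corner M K (h.le _ hK)) (cornerS A K hK) y ε' r := by
  classical
  intro F δ hδ
  have hxy : ‖ext0 K y‖ = ‖y‖ := norm_ext0 K y
  set x : H →L[ℂ] H := ext0 K y with hx
  have hd0 : 0 < (ε' - ε) / 4 := by linarith
  obtain ⟨κ, hκ0, hκ1, hκs⟩ : ∃ κ : ℝ, 0 < κ ∧ κ ≤ 1 ∧ √κ ≤ (ε' - ε) / 4 := by
    refine ⟨min 1 (((ε' - ε) / 4) ^ 2), lt_min one_pos (by positivity), min_le_left _ _, ?_⟩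
    calc √(min 1 (((ε' - ε) / 4) ^ 2)) ≤ √(((ε' - ε) / 4) ^ 2) :=
          Real.sqrt_le_sqrt (min_le_right _ _)
      _ = (ε' - ε) / 4 := Real.sqrt_sq hd0.le
  obtain ⟨p, a, q, hpart, ha, hsa, han, hq, hqp, hξ, hfin⟩ :=
    hp (F.image (fun v : K => (v : H))) (κ * δ) (mul_pos hκ0 hδ)
  have hcomm : ∀ b ∈ A, K.starProjection * b = b * K.starProjection := fun b hb =>
    h.comm _ hK _ hb
  have hq1 : IsStarProjection (1 - q) := hqp.one_sub
  have hW0 : 0 ≤ comp0 K (1 - q) := low_pos K hq1.nonneg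
  have hWM : comp0 K (1 - q) ∈ corner M K (h.le _ hK) :=
    comp0_mem_corner (sub_mem (one_mem M) hq)
  obtain ⟨g, hgM, hgp, -, hg1, hg2⟩ := spectral_cut hWM hW0 hκ0
  have hWin : ∀ v : K, (⟪v, comp0 K (1 - q) v⟫_ℂ).re = ‖(1 - q) (v : H)‖ ^ 2 := by
    intro v
    rw [low_inner, low_proj_inner hq1]
  have hgsmall : ∀ v : K, ‖(1 - q) ((g v : K) : H)‖ ≤ √κ * ‖g v‖ := by
    intro v
    have h1 : ‖(1 - q) ((g v : K) : H)‖ ^ 2 ≤ (√κ * ‖g v‖) ^ 2 := by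
      rw [← hWin, mul_pow, Real.sq_sqrt hκ0.le]
      calc (⟪g v, comp0 K (1 - q) (g v)⟫_ℂ).re ≤ ‖⟪g v, comp0 K (1 - q) (g v)⟫_ℂ‖ :=
            Complex.re_le_norm _
        _ ≤ ‖g v‖ * ‖comp0 K (1 - q) (g v)‖ := norm_inner_le_norm _ _
        _ ≤ ‖g v‖ * (κ * ‖g v‖) := mul_le_mul_of_nonneg_left (hg1 v) (norm_nonneg _)
        _ = κ * ‖g v‖ ^ 2 := by ring
    exact abs_le_of_sq_le_sq' h1 (by positivity) |>.2
  set T : H →L[ℂ] H := ∑ i, p i * x * p i - a with hT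
  have hTn : ‖T‖ ≤ 2 * ‖x‖ := by
    have h1 : ‖∑ i, p i * x * p i‖ ≤ ‖x‖ := _root_.P078.Part.pinch_norm (A := A)
      ⟨r, p, hpart.mem, hpart.proj, hpart.orth, hpart.sum⟩ x
    calc ‖T‖ ≤ ‖∑ i, p i * x * p i‖ + ‖a‖ := norm_sub_le _ _
      _ ≤ ‖x‖ + ‖x‖ := add_le_add h1 han
      _ = 2 * ‖x‖ := by ring
  have hcompT : ∑ i, comp0 K (p i) * y * comp0 K (p i) - comp0 K a = comp0 K T := by
    have hterm : ∀ i, comp0 K (p i * x * p i) = comp0 K (p i) * y * comp0 K (p i) := by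
      intro i
      rw [comp0_mul_right K (p i * x) (hcomm _ (hpart.mem i)),
        comp0_mul_left K x (hcomm _ (hpart.mem i)), hx, comp0_ext0]
    rw [hT, comp0_sub, low_sum, Finset.sum_congr rfl fun i _ => hterm i]
  refine ⟨fun i => comp0 K (p i), comp0 K a, g, ⟨?_, ?_, ?_, ?_⟩, comp0_mem_cornerS ha, ?_, ?_,
    hgM, hgp, ?_, ?_⟩
  · exact fun i => comp0_mem_cornerS (hpart.mem i)
  · intro i
    refine ⟨?_, ?_⟩
    · change comp0 K (p i) * comp0 K (p i) = comp0 K (p i)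
      rw [← comp0_mul_left K (p i) (hcomm _ (hpart.mem i)), (hpart.proj i).isIdempotentElem]
    · change star (comp0 K (p i)) = comp0 K (p i)
      rw [← comp0_star, (hpart.proj i).isSelfAdjoint.star_eq]
  · intro i j hij
    change comp0 K (p i) * comp0 K (p j) = 0
    rw [← comp0_mul_left K (p j) (hcomm _ (hpart.mem i)), hpart.orth i j hij, low_zero]
  · change ∑ i, comp0 K (p i) = 1
    rw [← low_sum, hpart.sum, comp0_one]
  · change star (comp0 K a) = comp0 K a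
    rw [← comp0_star, hsa.star_eq]
  · exact (norm_comp0_le K a).trans (han.trans hxy.le)
  · intro ξ hξF
    have h1 : ‖(1 - q) (ξ : H)‖ < κ * δ := hξ _ (Finset.mem_image_of_mem _ hξF)
    have h2 := hg2 ξ
    rw [hWin] at h2
    have h3 : ‖(1 - q) (ξ : H)‖ ^ 2 < (κ * δ) ^ 2 := pow_lt_pow_left₀ h1 (norm_nonneg _) two_ne_zero
    have h4 : κ * ‖(1 - g) ξ‖ ^ 2 < κ * (κ * δ ^ 2) := by
      calc κ * ‖(1 - g) ξ‖ ^ 2 ≤ ‖(1 - q) (ξ : H)‖ ^ 2 := h2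
        _ < (κ * δ) ^ 2 := h3
        _ = κ * (κ * δ ^ 2) := by ring
    have h5 : ‖(1 - g) ξ‖ ^ 2 < κ * δ ^ 2 := lt_of_mul_lt_mul_left h4 hκ0.le
    have h6 : ‖(1 - g) ξ‖ ^ 2 < δ ^ 2 := by
      have : κ * δ ^ 2 ≤ 1 * δ ^ 2 := mul_le_mul_of_nonneg_right hκ1 (by positivity)
      linarith
    exact lt_of_pow_lt_pow_left₀ 2 hδ.le h6
  · change ‖g * (∑ i, comp0 K (p i) * y * comp0 K (p i) - comp0 K a) * g‖ ≤ ε' * ‖y‖
    rw [hcompT]
    have hC0 : 0 ≤ ‖q * T * q‖ + 2 * √κ * ‖T‖ := by positivity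
    have hmain : ‖g * comp0 K T * g‖ ≤ ‖q * T * q‖ + 2 * √κ * ‖T‖ := by
      refine ContinuousLinearMap.opNorm_le_bound _ hC0 fun v => ?_
      have hgg : ∀ z : K, g (g z) = g z := fun z => DFunLike.congr_fun hgp.isIdempotentElem z
      set u : K := g v with hu
      set w : K := g (comp0 K T u) with hw
      have hwv : (g * comp0 K T * g) v = w := rfl
      rw [hwv]
      have hgw : g w = w := hgg _
      have hu1 : ‖(1 - q) (u : H)‖ ≤ √κ * ‖u‖ := hgsmall v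
      have hw1 : ‖(1 - q) (w : H)‖ ≤ √κ * ‖w‖ := by
        have := hgsmall w
        rwa [hgw] at this
      have huv : ‖u‖ ≤ ‖v‖ := low_proj_le hgp v
      have e1 : ((‖w‖ ^ 2 : ℝ) : ℂ) = ⟪(w : H), T (u : H)⟫_ℂ := by
        rw [← low_inner, ← hgw, low_sa hgp.isSelfAdjoint, hgw]
        change _ = ⟪w, w⟫_ℂ
        rw [inner_self_eq_norm_sq_to_K]
        norm_cast
      have e2 : ⟪(w : H), T (u : H)⟫_ℂ = ⟪(w : H), (q * T * q) (u : H)⟫_ℂ +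
          ⟪q (w : H), T ((1 - q) (u : H))⟫_ℂ + ⟪(1 - q) (w : H), T (u : H)⟫_ℂ := by
        have f1 : (q * T * q) (u : H) = q (T (q (u : H))) := rfl
        have f2 : (1 - q) (u : H) = (u : H) - q (u : H) := rfl
        have f3 : (1 - q) (w : H) = (w : H) - q (w : H) := rfl
        rw [f1, f2, f3, ← low_sa hqp.isSelfAdjoint, map_sub, inner_sub_right, inner_sub_left]
        ring
      have n1 : ‖⟪(w : H), (q * T * q) (u : H)⟫_ℂ‖ ≤ ‖w‖ * (‖q * T * q‖ * ‖u‖) :=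
        (norm_inner_le_norm _ _).trans
          (mul_le_mul_of_nonneg_left ((q * T * q).le_opNorm _) (norm_nonneg _))
      have n2 : ‖⟪q (w : H), T ((1 - q) (u : H))⟫_ℂ‖ ≤ ‖w‖ * (‖T‖ * (√κ * ‖u‖)) :=
        (norm_inner_le_norm _ _).trans (mul_le_mul (low_proj_le hqp _)
          ((T.le_opNorm _).trans (mul_le_mul_of_nonneg_left hu1 (norm_nonneg _)))
          (norm_nonneg _) (norm_nonneg _))
      have n3 : ‖⟪(1 - q) (w : H), T (u : H)⟫_ℂ‖ ≤ (√κ * ‖w‖) * (‖T‖ * ‖u‖) :=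
        (norm_inner_le_norm _ _).trans (mul_le_mul hw1 (T.le_opNorm _) (norm_nonneg _)
          (by positivity))
      have n4 : ‖w‖ ^ 2 ≤ ‖w‖ * ((‖q * T * q‖ + 2 * √κ * ‖T‖) * ‖u‖) := by
        have e3 : ‖((‖w‖ ^ 2 : ℝ) : ℂ)‖ = ‖w‖ ^ 2 := by
          rw [Complex.norm_real, Real.norm_of_nonneg (by positivity)]
        rw [← e3, e1, e2]
        refine (norm_add₃_le).trans ?_
        calc _ ≤ ‖w‖ * (‖q * T * q‖ * ‖u‖) + ‖w‖ * (‖T‖ * (√κ * ‖u‖)) +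
              (√κ * ‖w‖) * (‖T‖ * ‖u‖) := add_le_add (add_le_add n1 n2) n3
          _ = ‖w‖ * ((‖q * T * q‖ + 2 * √κ * ‖T‖) * ‖u‖) := by ring
      have n5 : ‖w‖ ≤ (‖q * T * q‖ + 2 * √κ * ‖T‖) * ‖u‖ := by
        rcases (norm_nonneg w).eq_or_lt with h0 | h0
        · rw [← h0]
          positivity
        · rw [sq] at n4
          exact le_of_mul_le_mul_left n4 h0
      exact n5.trans (mul_le_mul_of_nonneg_left huv hC0)
    have hs0 : 0 ≤ √κ := Real.sqrt_nonneg _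
    calc ‖g * comp0 K T * g‖ ≤ ‖q * T * q‖ + 2 * √κ * ‖T‖ := hmain
      _ ≤ ε * ‖x‖ + 2 * √κ * (2 * ‖x‖) :=
          add_le_add hfin (mul_le_mul_of_nonneg_left hTn (by positivity))
      _ = (ε + 4 * √κ) * ‖x‖ := by ring
      _ ≤ ε' * ‖x‖ := mul_le_mul_of_nonneg_right (by linarith) (norm_nonneg _)
      _ = ε' * ‖y‖ := by rw [hxy]

end Vale.Agent.P078
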