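import Vale.Agent.Lib.P078C.Def

/-!
# P078C State: elementary facts about an `A`-central normal positive functional

The same proofs as in `Lib/P078L/Trace.lean` (tr_star, tr_nonneg, tr_mono, tr_cs; copy them, only
`nonneg` is used): `sqrt y ∈ M` for `0 ≤ y ∈ M`; Cauchy-Schwarz by expanding
`0 ≤ ψ((x + c y)⋆ (x + c y))`.
-/

namespace Vale.Agent.P078

open Filter
open scoped InnerProductSpace Topology

universe u

variable {H : Type u} [NormedAddCommGroup H] [InnerProductSpace ℂ H] [CompleteSpace H]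
  {M : VonNeumannAlgebra H} {A : StarSubalgebra ℂ (H →L[ℂ] H)}

private theorem cnS_smul_mem {y : H →L[ℂ] H} (hy : y ∈ M) (c : ℂ) : c • y ∈ M :=
  M.toStarSubalgebra.smul_mem hy c

private theorem cnS_exists_sqrt {y : H →L[ℂ] H} (hy : y ∈ M) (h0 : 0 ≤ y) :
    ∃ s ∈ M, star s * s = y := by
  have hsa : IsSelfAdjoint y := IsSelfAdjoint.of_nonneg h0
  have hs : IsSelfAdjoint (cfc Real.sqrt y) := cfc_predicate _ _
  refine ⟨cfc Real.sqrt y, mem_of_comm fun t ht => ?_, ?_⟩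
  · have h1 : Commute y t := comm_of_mem hy ht
    exact ((h1.cfc_real Real.sqrt).eq).symm
  · rw [hs.star_eq, ← cfc_mul Real.sqrt Real.sqrt y
      (Real.continuous_sqrt.continuousOn) (Real.continuous_sqrt.continuousOn)]
    have h2 : cfc (fun t : ℝ => Real.sqrt t * Real.sqrt t) y = cfc (fun t : ℝ => t) y := by
      refine cfc_congr fun t ht => ?_
      exact Real.mul_self_sqrt (spectrum_nonneg_of_nonneg h0 ht)
    rw [h2, cfc_id' ℝ y]

private theorem cnS_expand (τ : (H →L[ℂ] H) →ₗ[ℂ] ℂ) {x y : H →L[ℂ] H} (c : ℂ) :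
    τ (star (x + c • y) * (x + c • y)) = τ (star x * x) + c * τ (star x * y) +
      (starRingEnd ℂ) c * τ (star y * x) + (starRingEnd ℂ) c * c * τ (star y * y) := by
  have h1 : star (x + c • y) * (x + c • y) = star x * x + c • (star x * y) +
      (starRingEnd ℂ) c • (star y * x) + ((starRingEnd ℂ) c * c) • (star y * y) := by
    rw [star_add, star_smul, add_mul, mul_add, mul_add, mul_smul_comm, smul_mul_assoc,
      smul_mul_assoc, mul_smul_comm, smul_smul]
    simp only [RCLike.star_def]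
    abel
  rw [h1]
  simp only [map_add, map_smul, smul_eq_mul]

theorem cn_star {ψ : (H →L[ℂ] H) →ₗ[ℂ] ℂ} (hψ : IsCentralNormal M A ψ) {y : H →L[ℂ] H}
    (hy : y ∈ M) : ψ (star y) = (starRingEnd ℂ) (ψ y) := by
  have hm : ∀ c : ℂ, (1 : H →L[ℂ] H) + c • y ∈ M := fun c => add_mem (one_mem M) (cnS_smul_mem hy c)
  have h1 := (hψ.nonneg _ (hm 1)).2
  have h2 := (hψ.nonneg _ (hm Complex.I)).2
  have h3 := (hψ.nonneg _ hy).2
  have h0 := (hψ.nonneg _ (one_mem M)).2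
  rw [cnS_expand ψ] at h1 h2
  simp only [star_one, one_mul, mul_one, map_one, Complex.conj_I] at h0 h1 h2
  simp only [Complex.add_im, Complex.mul_im, Complex.mul_re, Complex.neg_re, Complex.neg_im,
    Complex.I_re, Complex.I_im, h0, h3] at h1 h2
  apply Complex.ext
  · rw [Complex.conj_re]
    linarith
  · rw [Complex.conj_im]
    linarith

theorem cn_nonneg {ψ : (H →L[ℂ] H) →ₗ[ℂ] ℂ} (hψ : IsCentralNormal M A ψ) {y : H →L[ℂ] H}
    (hy : y ∈ M) (h0 : 0 ≤ y) : 0 ≤ (ψ y).re ∧ (ψ y).im = 0 := by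
  obtain ⟨s, hs, rfl⟩ := cnS_exists_sqrt hy h0
  exact hψ.nonneg s hs

theorem cn_mono {ψ : (H →L[ℂ] H) →ₗ[ℂ] ℂ} (hψ : IsCentralNormal M A ψ) {x y : H →L[ℂ] H}
    (hx : x ∈ M) (hy : y ∈ M) (h : x ≤ y) : (ψ x).re ≤ (ψ y).re := by
  have h1 := (cn_nonneg hψ (sub_mem hy hx) (sub_nonneg.2 h)).1
  rw [map_sub, Complex.sub_re] at h1
  linarith

theorem cn_cs {ψ : (H →L[ℂ] H) →ₗ[ℂ] ℂ} (hψ : IsCentralNormal M A ψ) {x y : H →L[ℂ] H}
    (hx : x ∈ M) (hy : y ∈ M) :
    ‖ψ (star x * y)‖ ^ 2 ≤ (ψ (star x * x)).re * (ψ (star y * y)).re := by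
  set z : ℂ := ψ (star x * y) with hz
  have hzc : ψ (star y * x) = (starRingEnd ℂ) z := by
    rw [hz, ← cn_star hψ (mul_mem (star_mem hx) hy), star_mul, star_star]
  have key : ∀ t : ℝ, 0 ≤ (‖z‖ ^ 2 * (ψ (star y * y)).re) * (t * t) + (-(2 * ‖z‖ ^ 2)) * t +
      (ψ (star x * x)).re := by
    intro t
    have h1 := (hψ.nonneg _ (add_mem hx (cnS_smul_mem hy (-(t : ℂ) * (starRingEnd ℂ) z)))).1
    rw [cnS_expand ψ, hzc, ← hz] at h1
    have e1 : (-(t : ℂ) * (starRingEnd ℂ) z) * z = ((-(t * ‖z‖ ^ 2) : ℝ) : ℂ) := by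
      rw [mul_assoc, Complex.conj_mul']
      push_cast
      ring
    have e2 : (starRingEnd ℂ) (-(t : ℂ) * (starRingEnd ℂ) z) * (starRingEnd ℂ) z =
        ((-(t * ‖z‖ ^ 2) : ℝ) : ℂ) := by
      rw [← map_mul, e1, Complex.conj_ofReal]
    have e3 : (starRingEnd ℂ) (-(t : ℂ) * (starRingEnd ℂ) z) * (-(t : ℂ) * (starRingEnd ℂ) z) =
        ((t * t * ‖z‖ ^ 2 : ℝ) : ℂ) := by
      rw [map_mul, map_neg, Complex.conj_ofReal, Complex.conj_conj, mul_mul_mul_comm,
        Complex.mul_conj']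
      push_cast
      ring
    rw [e1, e2, e3] at h1
    simp only [Complex.add_re, Complex.ofReal_re, Complex.re_ofReal_mul] at h1
    linarith
  have h2 := discrim_le_zero key
  unfold discrim at h2
  rcases (sq_nonneg ‖z‖).lt_or_eq with h | h
  · by_contra hc
    push Not at hc
    have h3 := mul_lt_mul_of_pos_left hc h
    linarith
  · rw [← h]
    exact mul_nonneg (hψ.nonneg x hx).1 (hψ.nonneg y hy).1

end Vale.Agent.P078
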